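import Vale.Agent.P155.NT613.UnxE

/-!
# P155, NT, V1: the polygon zone of the first moment at mesoscopic scales
-/

namespace Vale.Agent.P155.NT878

open Vale.Agent.P155 Finset SW HT T905 T802 T862 G45 J H904 H12 NT E4 S862 NT905 NT743 S743 NT613

open Classical in
/-- **the polygon zone of the first moment**, for test functions of size `R^(c/4) / R²`: one bound
for all stopping times, centres and test functions -/
theorem zone_fm {e0 : ℝ} (he0 : 0 < e0) : ∃ c > (0 : ℝ), ∀ C0 Cc : ℝ, 0 ≤ C0 → 0 ≤ Cc →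
    ∃ C : ℝ, 0 ≤ C ∧ ∀ (R : ℕ) (T : Temp), 1 ≤ R → Skel.Fits T R → ∀ s D h : ℕ, 1 ≤ s → s ≤ D →
    8 * s ≤ R → (D : ℝ) ≤ (R : ℝ) ^ c → (h : ℝ) ≤ (R : ℝ) ^ (1 - e0) → h ≤ R →
    ∃ F : Conf → ℝ, (∀ ω, 0 ≤ F ω) ∧ Ex T.V F ≤ C * (R : ℝ) ^ (-(c / 2)) ∧
    ∀ (xS : ℤ) (τ : Stop T.V xS), ∀ ω ∈ DD T.V, τ.New ω →
      (∀ z, ∃ v ∈ τ.L ω, v ∉ box z h) → ∀ (φ u χ : Pt → ℝ),
      (∀ y, |φ y| ≤ C0 * (R : ℝ) ^ (c / 4) / (R : ℝ) ^ 2) → (∀ y, y ∉ box (0, 0) R → φ y = 0) →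
      IsCut (OE T (τ.E ω)) s Cc χ → IsGreen (OE T (τ.E ω)) φ u → ∀ S : Finset Pt,
      (∀ x ∈ S, dF T.faceSet x ≤ h ∧ ∃ v ∈ τ.L ω, dn x v ≤ D + 1) →
      ∑ x ∈ S, |fL (OE T (τ.E ω)) φ χ u x| ≤ F ω := by
  obtain ⟨c, hc, hnp⟩ := nearPoly e0 he0
  refine ⟨c, hc, ?_⟩
  intro C0 Cc hC0 hCc
  obtain ⟨C, hC, hnp⟩ := hnp 1 (8 * C0) Cc one_pos (by positivity) hCc
  refine ⟨C, hC, ?_⟩
  intro R T hR hfit s D h hs hsD h8 hD hh hhR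
  have hR1 : (1 : ℝ) ≤ R := by exact_mod_cast hR
  have hR0 : (0 : ℝ) < R := by linarith
  obtain ⟨F, hF0, hEF, hF⟩ := hnp R T hR hfit ((R : ℤ) + 1, 0) R s D h (by linarith) hs
    hsD h8 hhR hD hh
  obtain ⟨r, hr⟩ : ∃ r : ℝ, r = (R : ℝ) ^ (c / 4) := ⟨_, rfl⟩
  have hr0 : 0 < r := by rw [hr]; positivity
  refine ⟨fun ω => r * F ω, fun ω => mul_nonneg hr0.le (hF0 ω), ?_, ?_⟩
  · rw [H12.Ex_mul]
    calc r * Ex T.V F ≤ r * (C * (R : ℝ) ^ (-c)) := mul_le_mul_of_nonneg_left hEF hr0.le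
      _ = C * ((R : ℝ) ^ (c / 4) * (R : ℝ) ^ (-c)) := by rw [hr]; ring
      _ ≤ C * (R : ℝ) ^ (-(c / 2)) := by
          rw [← Real.rpow_add hR0]
          refine mul_le_mul_of_nonneg_left ?_ hC
          exact Real.rpow_le_rpow_of_exponent_le hR1 (by linarith)
  · intro xS τ ω hω hN hdiam φ u χ hφ hφ0 hχ hu S hS
    have hOs : OE T (τ.E ω) ⊆ T.faceSet := fun f hf => hf.1
    have hr1 : r⁻¹ * r = 1 := inv_mul_cancel₀ hr0.ne'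
    have hφd : ∀ y, |(fun y => r⁻¹ * φ y) y| ≤ E4.dens (8 * C0) ((R : ℤ) + 1, 0) R y := by
      intro y
      by_cases hy : y ∈ box (0, 0) R
      · refine le_trans ?_ (flat_dens hR hC0 hy)
        dsimp only
        rw [abs_mul, abs_of_pos (inv_pos.2 hr0)]
        calc r⁻¹ * |φ y| ≤ r⁻¹ * (C0 * (R : ℝ) ^ (c / 4) / (R : ℝ) ^ 2) :=
              mul_le_mul_of_nonneg_left (hφ y) (inv_pos.2 hr0).le
          _ = (r⁻¹ * r) * (C0 / (R : ℝ) ^ 2) := by rw [← hr]; ring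
          _ = _ := by rw [hr1, one_mul]
      · dsimp only
        rw [hφ0 y hy, mul_zero, abs_zero]
        exact dens_nonneg (by positivity) _ _ _
    have hu' : IsGreen (OE T (τ.E ω)) (fun y => r⁻¹ * φ y) (fun y => r⁻¹ * u y) :=
      green_smul hu r⁻¹
    have h1 := hF ω hω (τ.L ω) (Stop.L_mem hN) hdiam (OE T (τ.E ω)) χ _ _
      (Stop.cpr hω) hOs hχ hφd hu' S hS
    have h2 : ∑ x ∈ S, |fL (OE T (τ.E ω)) (fun y => r⁻¹ * φ y) χ (fun y => r⁻¹ * u y) x| =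
        r⁻¹ * ∑ x ∈ S, |fL (OE T (τ.E ω)) φ χ u x| := by
      rw [Finset.mul_sum]
      refine Finset.sum_congr rfl fun x _ => ?_
      rw [fL_smul, abs_mul, abs_of_pos (inv_pos.2 hr0)]
    rw [h2] at h1
    calc ∑ x ∈ S, |fL (OE T (τ.E ω)) φ χ u x| = r * (r⁻¹ * ∑ x ∈ S, |fL (OE T (τ.E ω)) φ χ u x|) := by
          rw [← mul_assoc, mul_comm r, hr1, one_mul]
      _ ≤ r * F ω := mul_le_mul_of_nonneg_left h1 hr0.le

open Classical in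
/-- **the polygon zone of the first moment** at a stopping time, for bumps of scale
`n ≥ R^(1-e)`; `S ω` is any set of points near the polygon and near the explored loop -/
theorem zone_dom {e0 : ℝ} (he0 : 0 < e0) : ∃ c > (0 : ℝ), ∃ e > (0 : ℝ), ∀ C0 : ℝ, 0 ≤ C0 →
    ∃ C : ℝ, 0 ≤ C ∧ ∀ (R : ℕ) (T : Temp), 1 ≤ R → Skel.Fits T R → ∀ s D h n : ℕ, 8 ≤ s → s ≤ D →
    8 * s ≤ R → (D : ℝ) ≤ (R : ℝ) ^ c → (h : ℝ) ≤ (R : ℝ) ^ (1 - e0) → h ≤ R → 1 ≤ n →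
    (R : ℝ) ^ (1 - e) ≤ n →
    ∀ (xS : ℤ) (τ : Stop T.V xS) (Dom : Conf → Prop) (φ : Conf → Pt → ℝ)
      (S : Conf → Finset Pt),
    (∀ ω ∈ DD T.V, Dom ω → τ.New ω ∧ (∀ z, ∃ v ∈ τ.L ω, v ∉ box z h) ∧
      (∀ y, |φ ω y| ≤ C0 / (n : ℝ) ^ 2) ∧ (∀ y, y ∉ box (0, 0) R → φ ω y = 0) ∧
      ∀ x ∈ S ω, dF T.faceSet x ≤ h ∧ ∃ v ∈ τ.L ω, dn x v ≤ D + 1) →
    Ex T.V (fun ω => if Dom ω then ∑ x ∈ S ω, |gL T τ.E φ s ω x| else 0) ≤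
      C * (R : ℝ) ^ (-c) := by
  obtain ⟨c, hc, hz⟩ := zone_fm he0
  refine ⟨c / 2, by positivity, c / 8, by positivity, ?_⟩
  intro C0 hC0
  obtain ⟨C, hC, hz⟩ := hz C0 (32 ^ 4) hC0 (by norm_num)
  refine ⟨C, hC, ?_⟩
  intro R T hR hfit s D h n hs hsD h8 hD hh hhR hn1 hn xS τ Dom φ S hDom
  have hR1 : (1 : ℝ) ≤ R := by exact_mod_cast hR
  have hR0 : (0 : ℝ) < R := by linarith
  have hn0 : (0 : ℝ) < n := by exact_mod_cast hn1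
  obtain ⟨F, hF0, hEF, hF⟩ := hz R T hR hfit s D h (by omega) hsD h8
    (hD.trans (Real.rpow_le_rpow_of_exponent_le hR1 (by linarith))) hh hhR
  refine le_trans (H12.Ex_mono (V := T.V) ?_) hEF
  intro ω hω
  show (if Dom ω then ∑ x ∈ S ω, |gL T τ.E φ s ω x| else 0) ≤ F ω
  split_ifs with hd
  · obtain ⟨g1, g2, g3, g4, g5⟩ := hDom ω hω hd
    have hO := oe_finite T (τ.E ω)
    refine hF xS τ ω hω g1 g2 (φ ω) (pot (OE T (τ.E ω)) (φ ω)) (cutf (OE T (τ.E ω)) s) ?_ g4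
      (cutf_isCut (exists_notMem hO) hs le_rfl) (pot_spec hO (φ ω)) (S ω) g5
    intro y
    refine (g3 y).trans ?_
    rw [div_le_div_iff₀ (by positivity) (by positivity)]
    have h1 : (R : ℝ) ^ 2 ≤ (R : ℝ) ^ (c / 4) * (n : ℝ) ^ 2 := by
      have h2 : ((R : ℝ) ^ (1 - c / 8)) ^ 2 ≤ (n : ℝ) ^ 2 := pow_le_pow_left₀ (by positivity) hn 2
      calc (R : ℝ) ^ 2 = (R : ℝ) ^ (c / 4) * ((R : ℝ) ^ (1 - c / 8)) ^ 2 := by
            rw [← Real.rpow_natCast ((R : ℝ) ^ (1 - c / 8)) 2, ← Real.rpow_mul hR0.le,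
              ← Real.rpow_add hR0, ← Real.rpow_natCast]
            congr 1
            push_cast
            ring
        _ ≤ _ := mul_le_mul_of_nonneg_left h2 (by positivity)
    calc C0 * (R : ℝ) ^ 2 ≤ C0 * ((R : ℝ) ^ (c / 4) * (n : ℝ) ^ 2) :=
          mul_le_mul_of_nonneg_left h1 hC0
      _ = _ := by ring
  · exact hF0 ω

end Vale.Agent.P155.NT878
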