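import Vale.Agent.P155.A904.Trans
import Vale.Agent.P155.N924.Limits
import Vale.Agent.P155.BDK.Ko

/-!
# P155, NT: classes of polygons

`OneStep` for all polygons needs that no macroscopic piece of a loop stays near the complement of
the polygon (`BDrun`).  This holds along every sequence of approximations: `FS S M` is the class
of the polygons `S.T n` (at scale `⌈M / δ n⌉₊`), `FT F` the transposed class.
-/

namespace Vale.Agent.P155.NT878

open Topology Filter Vale.Agent.P155 Vale.Agent.P155.Q1 Skel D877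

/-- **BDrun**: along the class `F` no macroscopic piece of a loop stays near the complement of the
polygon. -/
def BDrun (F : ℕ → Temp → Prop) : Prop :=
  ∀ l ε : ℝ, 0 < l → 0 < ε → ∃ η : ℝ, 0 < η ∧ ∃ R0 : ℕ, ∀ R : ℕ, R0 ≤ R → ∀ T : Temp, F R T →
  Fits T R → Pr T.V (fun ω => ∃ v m, ω.1 v ≠ ω.2 v ∧
    (∀ j ≤ m, ∃ f, f ∉ T.faceSet ∧ dn f ((SW.suc ω)^[j] v) ≤ ⌊η * R⌋₊) ∧
    ∃ i ≤ m, ∃ j ≤ m, ⌊l * R⌋₊ ≤ dn ((SW.suc ω)^[i] v) ((SW.suc ω)^[j] v)) ≤ ε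

/-- the class of the polygons of `S`, at scale `⌈M / δ n⌉₊` -/
def FS {Ω : Set ℂ} (S : TempApprox Ω) (M : ℝ) (R : ℕ) (T : Temp) : Prop :=
  ∃ n, R = ⌈M / S.δ n⌉₊ ∧ T = S.T n

/-- the transposed class -/
def FT (F : ℕ → Temp → Prop) (R : ℕ) (T : Temp) : Prop := ∃ T0, F R T0 ∧ T = trT T0

theorem trT_trT (T : Temp) : trT (trT T) = T := rfl

theorem FT.of {F : ℕ → Temp → Prop} {R : ℕ} {T : Temp} (h : F R T) : FT F R (trT T) := ⟨T, h, rfl⟩

/-- large scale is late in the sequence -/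
theorem late {Ω : Set ℂ} (S : TempApprox Ω) (M : ℝ) {P : ℕ → Prop} (h : ∀ᶠ n in atTop, P n) :
    ∃ R0 : ℕ, ∀ n, R0 ≤ ⌈M / S.δ n⌉₊ → P n := by
  obtain ⟨N, hN⟩ := eventually_atTop.1 h
  refine ⟨(Finset.range N).sup (fun n => ⌈M / S.δ n⌉₊) + 1, fun n hn => ?_⟩
  by_contra hc
  have hlt : n < N := by
    by_contra h2
    exact hc (hN n (not_lt.1 h2))
  have : ⌈M / S.δ n⌉₊ ≤ (Finset.range N).sup (fun n => ⌈M / S.δ n⌉₊) :=
    Finset.le_sup (f := fun n => ⌈M / S.δ n⌉₊) (Finset.mem_range.2 hlt)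
  omega

/-- the transposed class -/
theorem bdrun_tr {F : ℕ → Temp → Prop} (h : BDrun F) : BDrun (FT F) := by
  intro l ε hl hε
  obtain ⟨η, hη, R0, hR0⟩ := h l ε hl hε
  refine ⟨η, hη, R0, ?_⟩
  rintro R hR _ ⟨T, hF, rfl⟩ hfit
  have hfit' : Fits T R := by
    have := fits_tr hfit
    rwa [trT_trT] at this
  rw [V_tr, Pr_tr]
  refine le_trans (E.Pr_mono ?_) (hR0 R hR T hF hfit')
  rintro ω _ ⟨v, m, hv, hnear, i, hi, j, hj, hd⟩
  refine ⟨tr v, m, ?_, ?_, i, hi, j, hj, ?_⟩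
  · have := NT.ne_tr (ω := ω) (v := tr v)
    rw [tr_tr] at this
    exact this.1 hv
  · intro j hj
    obtain ⟨f, hf, hfd⟩ := hnear j hj
    refine ⟨tr f, ?_, ?_⟩
    · intro hc
      apply hf
      have := (faceSet_tr T (tr f)).2 hc
      rwa [tr_tr] at this
    · have e := iter_tr ω (tr v) j
      rw [tr_tr] at e
      rw [e] at hfd
      have e2 := dn_tr (tr f) ((SW.suc ω)^[j] (tr v))
      rw [tr_tr] at e2
      rwa [← e2]
  · have e := iter_tr ω (tr v) i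
    have e' := iter_tr ω (tr v) j
    rw [tr_tr] at e e'
    rwa [e, e', dn_tr] at hd

/-- the centre of a face which is not in the polygon -/
theorem centre_notMem {T : Temp} {f : Pt} (hf : f ∉ T.faceSet) : BD.cf f ∉ region 1 0 T.faceSet := by
  intro hc
  obtain ⟨x, hx, hm⟩ := Set.mem_iUnion₂.1 hc
  obtain ⟨⟨h1, h2⟩, h3, h4⟩ := BDK.mem_sqr_iff.1 hm
  have e1 : (BD.cf f).re = f.1 + 1 / 2 := by
    unfold BD.cf
    simp
  have e2 : (BD.cf f).im = f.2 + 1 / 2 := by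
    unfold BD.cf
    simp
  rw [e1] at h1 h2
  rw [e2] at h3 h4
  have g1 : x.1 = f.1 := by
    have k1 : (x.1 : ℝ) < f.1 + 1 := by linarith
    have k2 : (f.1 : ℝ) < x.1 + 1 := by linarith
    have k1' : x.1 < f.1 + 1 := by exact_mod_cast k1
    have k2' : f.1 < x.1 + 1 := by exact_mod_cast k2
    omega
  have g2 : x.2 = f.2 := by
    have k1 : (x.2 : ℝ) < f.2 + 1 := by linarith
    have k2 : (f.2 : ℝ) < x.2 + 1 := by linarith
    have k1' : x.2 < f.2 + 1 := by exact_mod_cast k1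
    have k2' : f.2 < x.2 + 1 := by exact_mod_cast k2
    omega
  exact hf ((Prod.ext g1 g2 : x = f) ▸ hx)

/-- a vertex near a face outside of the polygon is near the boundary of the polygon -/
theorem near_frontier {T : Temp} {δ : ℝ} (hδ : 0 < δ) (a : ℂ) {v f : Pt} (hv : v ∈ T.V)
    (hf : f ∉ T.faceSet) :
    ∃ w ∈ frontier (region δ a T.faceSet), dist (pt δ a v) w ≤ 2 * δ * (dn f v + 1) := by
  have hc : a + δ * BD.cf f ∉ region δ a T.faceSet := by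
    intro hm
    obtain ⟨x, hx, s, t, h1, h2, h3, h4, h⟩ := Set.mem_iUnion₂.1 hm
    apply centre_notMem hf
    refine Set.mem_iUnion₂.2 ⟨x, hx, s, t, h1, h2, h3, h4, ?_⟩
    have hδ' : (δ : ℂ) ≠ 0 := by exact_mod_cast hδ.ne'
    have h5 := mul_left_cancel₀ hδ' (add_left_cancel h)
    rw [h5]
    simp
  obtain ⟨w, hw, hwd⟩ := K.segment_frontier (U := (region δ a T.faceSet)ᶜ) (x := a + δ * BD.cf f)
    (y := pt δ a v) hc (fun h => h (pt_mem_region hδ a hv))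
  rw [frontier_compl] at hw
  refine ⟨w, hw, ?_⟩
  rw [dist_eq_norm]
  refine hwd.trans ?_
  refine (Complex.norm_le_abs_re_add_abs_im _).trans ?_
  have e1 : (pt δ a v - (a + δ * BD.cf f)).re = δ * (v.1 - f.1 - 1 / 2) := by
    unfold BD.cf
    rw [Complex.sub_re, pt_re]
    simp
    ring
  have e2 : (pt δ a v - (a + δ * BD.cf f)).im = δ * (v.2 - f.2 - 1 / 2) := by
    unfold BD.cf
    rw [Complex.sub_im, pt_im]
    simp
    ring
  rw [e1, e2, abs_mul, abs_mul, abs_of_pos hδ, NT.dn_cast']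
  have h1 := le_max_left |(f.1 : ℝ) - v.1| |(f.2 : ℝ) - v.2|
  have h2 := le_max_right |(f.1 : ℝ) - v.1| |(f.2 : ℝ) - v.2|
  have h3 : |(v.1 : ℝ) - f.1 - 1 / 2| ≤ |(f.1 : ℝ) - v.1| + 1 / 2 := by
    have := abs_sub (v.1 - f.1 : ℝ) (1 / 2)
    rw [abs_sub_comm (v.1 : ℝ) f.1] at this
    have h4 : |(1 / 2 : ℝ)| = 1 / 2 := abs_of_pos (by norm_num)
    linarith
  have h4 : |(v.2 : ℝ) - f.2 - 1 / 2| ≤ |(f.2 : ℝ) - v.2| + 1 / 2 := by
    have := abs_sub (v.2 - f.2 : ℝ) (1 / 2)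
    rw [abs_sub_comm (v.2 : ℝ) f.2] at this
    have h4 : |(1 / 2 : ℝ)| = 1 / 2 := abs_of_pos (by norm_num)
    linarith
  nlinarith

/-- **BDrun along approximations** -/
theorem bdrun_FS (hBD : Q1.BD) {Ω : Set ℂ} (hΩ : IsOpen Ω) (hb : Bornology.IsBounded Ω)
    (hne : Ω.Nonempty) (hsc : SimplyConnectedSpace Ω) (S : TempApprox Ω) {M : ℝ} (hM : 0 < M) :
    BDrun (FS S M) := by
  intro l ε hl hε
  obtain ⟨η1, hη1, hev⟩ := hBD Ω hΩ hb hne hsc S (l * M / 2) (by positivity) ε hε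
  obtain ⟨R0, hR0⟩ := late S M (hev.and ((S.haus₁ (η1 / 4) (by positivity)).and
    ((S.mesh.eventually (gt_mem_nhds (show (0 : ℝ) < η1 / 8 by positivity))).and
    ((S.mesh.eventually (gt_mem_nhds (show (0 : ℝ) < l * M / 2 by positivity))).and
      (S.mesh.eventually (gt_mem_nhds (show (0 : ℝ) < M by positivity)))))))
  refine ⟨η1 / (16 * M), by positivity, R0, ?_⟩
  rintro R hR T ⟨n, rfl, rfl⟩ _
  obtain ⟨h1, h2, h3, h4, h5⟩ := hR0 n hR
  refine le_trans (E.Pr_mono ?_) h1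
  rintro ω hω ⟨v, m, hv, hnear, i, hi, j, hj, hd⟩
  have hδ := S.pos n
  set δ := S.δ n with hδdef
  have hvV : v ∈ (S.T n).V := mem_V_of_loop hω hv
  have hR1 : M / δ ≤ (⌈M / δ⌉₊ : ℝ) := Nat.le_ceil _
  have hR2 : (⌈M / δ⌉₊ : ℝ) < M / δ + 1 := Nat.ceil_lt_add_one (by positivity)
  have hMd : 1 < M / δ := by rwa [lt_div_iff₀ hδ, one_mul]
  refine ⟨v, m, hv, ?_, i, hi, j, hj, ?_⟩
  · intro j hj
    obtain ⟨f, hf, hfd⟩ := hnear j hj
    obtain ⟨w, hw, hwd⟩ := near_frontier hδ (S.a n) (Q1.iter_mem hω hvV j) hf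
    obtain ⟨w', hw', hwd'⟩ := Metric.mem_thickening_iff.1 (h2 hw)
    have k1 : ((dn f ((SW.suc ω)^[j] v) : ℕ) : ℝ) ≤ η1 / (16 * M) * ⌈M / δ⌉₊ :=
      (Nat.cast_le.2 hfd).trans (Nat.floor_le (by positivity))
    have k2 : δ * (η1 / (16 * M) * (⌈M / δ⌉₊ : ℝ)) ≤ η1 / 8 := by
      have : δ * (η1 / (16 * M) * (⌈M / δ⌉₊ : ℝ)) ≤ δ * (η1 / (16 * M) * (2 * (M / δ))) := by
        gcongr
        linarith
      refine this.trans (le_of_eq ?_)
      field_simp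
      norm_num
    have k3 : δ * (dn f ((SW.suc ω)^[j] v) : ℝ) ≤ η1 / 8 :=
      (mul_le_mul_of_nonneg_left k1 hδ.le).trans k2
    have k4 : Metric.infDist (pt δ (S.a n) ((SW.suc ω)^[j] v)) (frontier Ω) ≤
        dist (pt δ (S.a n) ((SW.suc ω)^[j] v)) w' := Metric.infDist_le_dist_of_mem hw'
    have k5 := dist_triangle (pt δ (S.a n) ((SW.suc ω)^[j] v)) w w'
    have k6 : 2 * δ * ((dn f ((SW.suc ω)^[j] v) : ℝ) + 1) ≤ η1 / 4 + η1 / 4 := by linarith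
    linarith
  · have k1 := NT.dn_le_dist hδ (S.a n) ((SW.suc ω)^[i] v) ((SW.suc ω)^[j] v)
    have k2 : l * (⌈M / δ⌉₊ : ℝ) - 1 < (dn ((SW.suc ω)^[i] v) ((SW.suc ω)^[j] v) : ℝ) :=
      (Nat.sub_one_lt_floor _).trans_le (Nat.cast_le.2 hd)
    have k3 : l * (M / δ) ≤ l * (⌈M / δ⌉₊ : ℝ) := mul_le_mul_of_nonneg_left hR1 hl.le
    have k4 : δ * (l * (M / δ)) = l * M := by field_simp
    have k5 : δ * (l * (M / δ) - 1) ≤ δ * (dn ((SW.suc ω)^[i] v) ((SW.suc ω)^[j] v) : ℝ) :=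
      mul_le_mul_of_nonneg_left (by linarith) hδ.le
    rw [mul_sub, k4, mul_one] at k5
    linarith

end Vale.Agent.P155.NT878
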