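import Vale.Agent.P155.NT905.FMPr

/-!
# P155, NT, V1: the term of the explored loop, for both walls
-/

namespace Vale.Agent.P155.NT878

open Finset SW HT T905 T802 J S743 G45 H904 H12 S862 E4 T862 NT NT743 NT905

/-- the mass of `Δ(χu)` is the mass of the layer function minus the mass of `φ` -/
theorem mass_ff {T : Temp} {xS : ℤ} {ω : Conf} {τ : Stop T.V xS} {φ : Conf → Pt → ℝ} {s : ℕ}
    (hs : 8 ≤ s) (hφ : ∀ x, x ∉ OE T (τ.E ω) → φ ω x = 0) (A : Set Pt) :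
    mass ω (gL T τ.E φ s ω) A = mass ω (ff T τ.E φ s ω) A + mass ω (φ ω) A := by
  have hO := oe_finite T (τ.E ω)
  have hcut : IsCut (OE T (τ.E ω)) s (32 ^ 4) (cutf (OE T (τ.E ω)) s) :=
    cutf_isCut (exists_notMem hO) hs le_rfl
  have hg0 : ∀ x, x ∉ hO.toFinset → gL T τ.E φ s ω x = 0 :=
    fL_zero_off hO (by omega : 1 ≤ s) hcut (pot_spec hO (φ ω))
  have hφ0 : ∀ x, x ∉ hO.toFinset → φ ω x = 0 := fun x hx => hφ x (by
    rw [Set.Finite.mem_toFinset] at hx; exact hx)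
  have h1 : mass ω (ff T τ.E φ s ω) A = mass ω (gL T τ.E φ s ω) A - mass ω (φ ω) A := by
    rw [← mass_sub hg0 hφ0]
    congr 1
    funext x
    exact ff_eq hs hφ x
  linarith

/-- mass of a nonnegative function -/
theorem mass_bds {ω : Conf} {φ : Pt → ℝ} {S : Finset Pt} (h0 : ∀ x, x ∉ S → φ x = 0)
    (hφ : ∀ x, 0 ≤ φ x) (A : Set Pt) : 0 ≤ mass ω φ A ∧ mass ω φ A ≤ ∑ x ∈ S, φ x := by
  classical
  rw [mass_eq_sum h0]
  constructor
  · exact Finset.sum_nonneg fun x _ => mul_nonneg (hφ x) (by split_ifs <;> norm_num)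
  · refine Finset.sum_le_sum fun x _ => ?_
    refine mul_le_of_le_one_right (hφ x) ?_
    split_ifs <;> norm_num

/-- the mass of the layer function in any loop -/
theorem mass_gL_le {T : Temp} {xS : ℤ} {ω : Conf} {τ : Stop T.V xS} {φ : Conf → Pt → ℝ} {s : ℕ}
    {M : ℝ} (hs : 8 ≤ s)
    (hM : ∀ S : Finset Pt, ∑ x ∈ S, |gL T τ.E φ s ω x| ≤ M) (A : Set Pt) :
    |mass ω (gL T τ.E φ s ω) A| ≤ M := by
  classical
  have hO := oe_finite T (τ.E ω)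
  have hcut : IsCut (OE T (τ.E ω)) s (32 ^ 4) (cutf (OE T (τ.E ω)) s) :=
    cutf_isCut (exists_notMem hO) hs le_rfl
  have hg0 : ∀ x, x ∉ hO.toFinset → gL T τ.E φ s ω x = 0 :=
    fL_zero_off hO (by omega : 1 ≤ s) hcut (pot_spec hO (φ ω))
  rw [mass_eq_sum hg0]
  refine (Finset.abs_sum_le_sum_abs _ _).trans ((Finset.sum_le_sum fun x _ => ?_).trans
    (hM hO.toFinset))
  rw [abs_mul]
  refine mul_le_of_le_one_right (abs_nonneg _) ?_
  split_ifs <;> simp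

/-- the elementary inequality -/
theorem lt_point {x y p S M : ℝ} (b : Bool) (hp : 0 ≤ p) (hpS : p ≤ S) (hx : |x| ≤ M)
    (hy : |y| ≤ M) :
    (x - y) * p ≤ 2 * M * (if b then S - p else p) + (if b then S * (x - y) else 0) := by
  have h1 : x - y ≤ 2 * M := by linarith [(abs_le.1 hx).2, (abs_le.1 hy).1]
  have h2 : -(2 * M) ≤ x - y := by linarith [(abs_le.1 hx).1, (abs_le.1 hy).2]
  cases b
  · simp only [Bool.false_eq_true, if_false, add_zero]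
    exact mul_le_mul_of_nonneg_right h1 hp
  · simp only [if_true]
    nlinarith

open Classical in
/-- **the term of the explored loop, for both walls** (`b = true`: the walls inside) -/
theorem lterm {C0 a a1 P Sm : ℝ} (hC0 : 0 ≤ C0) (ha : 0 < a) (h4 : 4 * a ≤ a1) (h1 : a1 ≤ 1)
    (hSm : 0 ≤ Sm) :
    ∃ M : ℝ, 0 ≤ M ∧ ∃ c : ℝ, 0 < c ∧ ∃ C : ℝ, 0 ≤ C ∧ ∃ R0 : ℕ, 1 ≤ R0 ∧
    ∀ (R : ℕ) (T : Temp), R0 ≤ R → Skel.Fits T R → ∀ (xS : ℤ) (τ σ : Stop T.V xS)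
    (Dom : Conf → Prop) (φ : Conf → Pt → ℝ), FMs τ Dom φ → FMs σ Dom φ →
    (∀ ω ∈ DD T.V, Dom ω → σ.t ω = τ.t ω ∧ τ.i ω ≤ σ.i ω) →
    (∀ ω ∈ DD T.V, Dom ω → (∀ x, 0 ≤ φ ω x) ∧ (∀ x, x ∉ OE T (σ.E ω) → φ ω x = 0) ∧
      ∑ x ∈ (oe_finite T (σ.E ω)).toFinset, φ ω x = Sm) →
    ∀ (n : ℕ) (p : Conf → Pt), (R : ℝ) ^ a1 ≤ n →
    (∀ ω ∈ DD T.V, Dom ω → p ω ∉ OE T (τ.E ω) ∧ IsBump (p ω) n (C0 / (n : ℝ) ^ 2) (φ ω)) →
    ∀ b : Bool,
    Ex T.V (fun ω => if Dom ω then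
      (mass ω (gL T σ.E φ ⌈(R : ℝ) ^ a⌉₊ ω) (τ.L ω) -
        mass ω (gL T τ.E φ ⌈(R : ℝ) ^ a⌉₊ ω) (τ.L ω)) * mass ω (φ ω) (τ.L ω) else 0) ≤
      2 * M * Ex T.V (fun ω => if Dom ω then
        (if b then Sm - mass ω (φ ω) (τ.L ω) else mass ω (φ ω) (τ.L ω)) else 0) +
      (C * (R : ℝ) ^ (-c) * Pr T.V Dom + C * (R : ℝ) ^ (-P)) := by
  obtain ⟨c, hc, C, hC, R1, hR1, hfm⟩ := fm_me_pr (C0 := C0) (P := P) ha h4 h1
  obtain ⟨γ, hγ, hγ1, hmass⟩ := mass_meso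
  obtain ⟨M, hM, hmass⟩ := hmass C0 (32 ^ 4) hC0
  have ev3 : ∀ᶠ R : ℕ in Filter.atTop, (9 ^ 10 : ℝ) ≤ (R : ℝ) ^ a :=
    ((tendsto_rpow_atTop ha).comp tendsto_natCast_atTop_atTop).eventually_ge_atTop _
  obtain ⟨R2, hR2⟩ := Filter.eventually_atTop.1 ev3
  refine ⟨M, hM, c, hc, Sm * (2 * C), by positivity, max R1 R2,
    le_trans hR1 (le_max_left _ _), ?_⟩
  intro R T hR hfit xS τ σ Dom φ hτ hσ hst hφ n p hn hb b
  have hRR1 : 1 ≤ R := hR1.trans ((le_max_left _ _).trans hR)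
  have hRr : (1 : ℝ) ≤ R := by exact_mod_cast hRR1
  have hs9 := hR2 R ((le_max_right _ _).trans hR)
  set s := ⌈(R : ℝ) ^ a⌉₊ with hs
  obtain ⟨hn9, -, h8s⟩ := scales_ok hRr ha h4 hn hs hs9
  have hs8 : 8 ≤ s := by
    have h2 : (8 : ℝ) ≤ (R : ℝ) ^ a := le_trans (by norm_num) hs9
    have h3 : (8 : ℝ) ≤ s := h2.trans (Nat.le_ceil _)
    exact_mod_cast h3
  have hE : ∀ ω ∈ DD T.V, Dom ω → τ.E ω ⊆ σ.E ω := by
    intro ω hω hd
    obtain ⟨ht, hi⟩ := hst ω hω hd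
    rintro v (hv | ⟨j, hj, hv⟩)
    · left; rw [ht]; exact hv
    · right; exact ⟨j, hj.trans hi, by rw [ht]; exact hv⟩
  have hOE : ∀ ω ∈ DD T.V, Dom ω → OE T (σ.E ω) ⊆ OE T (τ.E ω) := by
    intro ω hω hd x hx
    refine ⟨hx.1, fun h2 => hx.2 ?_⟩
    obtain ⟨v, h3, h4⟩ := h2
    exact ⟨v, h3, hE ω hω hd h4⟩
  have hL : ∀ ω ∈ DD T.V, Dom ω → σ.L ω = τ.L ω := by
    intro ω hω hd
    unfold Stop.L
    rw [(hst ω hω hd).1]
  have hbσ : ∀ ω ∈ DD T.V, Dom ω → p ω ∉ OE T (σ.E ω) ∧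
      IsBump (p ω) n (C0 / (n : ℝ) ^ 2) (φ ω) := fun ω hω hd =>
    ⟨fun h => (hb ω hω hd).1 (hOE ω hω hd h), (hb ω hω hd).2⟩
  have hdens : ∀ ω ∈ DD T.V, Dom ω → ∀ y, |φ ω y| ≤ E4.dens C0 (p ω) n y := by
    intro ω hω hd y
    have hbump := (hb ω hω hd).2
    by_cases hy : y ∈ box (p ω) n
    · exact (IsBump.abs_le hbump y).trans (le_dens hC0 (by omega) (mem_box_dn905.1 hy))
    · rw [hbump.1 y hy, abs_zero]
      exact dens_nonneg hC0 _ _ _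
  have hmb : ∀ (ρ : Stop T.V xS), ∀ ω ∈ DD T.V, Dom ω → p ω ∉ OE T (ρ.E ω) →
      ∀ A, |mass ω (gL T ρ.E φ s ω) A| ≤ M := by
    intro ρ ω hω hd hpρ A
    refine mass_gL_le hs8 (fun S => ?_) A
    have hO := oe_finite T (ρ.E ω)
    exact (hmass (OE T (ρ.E ω)) (p ω) n s (cutf (OE T (ρ.E ω)) s) (φ ω) _ hO
      (Stop.cpr hω) hpρ (by omega) (by omega) h8s (cutf_isCut (exists_notMem hO) hs8 le_rfl)
      (hdens ω hω hd) (pot_spec hO (φ ω))).1 S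
  -- pointwise
  have hpt : ∀ ω ∈ DD T.V, Dom ω →
      (mass ω (gL T σ.E φ s ω) (τ.L ω) - mass ω (gL T τ.E φ s ω) (τ.L ω)) *
        mass ω (φ ω) (τ.L ω) ≤
      2 * M * (if b then Sm - mass ω (φ ω) (τ.L ω) else mass ω (φ ω) (τ.L ω)) +
        ((if b then Sm else 0) * mass ω (ff T σ.E φ s ω) (τ.L ω) +
          (-(if b then Sm else 0)) * mass ω (ff T τ.E φ s ω) (τ.L ω)) := by
    intro ω hω hd
    obtain ⟨g1, g2, g3⟩ := hφ ω hω hd
    have hm := mass_bds (ω := ω) (S := (oe_finite T (σ.E ω)).toFinset)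
      (fun x hx => g2 x (by rw [Set.Finite.mem_toFinset] at hx; exact hx)) g1 (τ.L ω)
    rw [g3] at hm
    have g2τ : ∀ x, x ∉ OE T (τ.E ω) → φ ω x = 0 := fun x hx =>
      g2 x (fun h => hx (hOE ω hω hd h))
    have e1 := mass_ff (τ := σ) hs8 g2 (τ.L ω)
    have e2 := mass_ff (τ := τ) hs8 g2τ (τ.L ω)
    have key := lt_point b hm.1 hm.2 (hmb σ ω hω hd (hbσ ω hω hd).1 (τ.L ω))
      (hmb τ ω hω hd (hb ω hω hd).1 (τ.L ω))
    refine key.trans (le_of_eq ?_)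
    congr 1
    rw [e1, e2]
    cases b
    · simp
    · simp only [if_true]; ring
  have h5 := ex_dom_mono (V := T.V) (Dom := Dom) hpt
  rw [ex_dom_add, ex_dom_add, ex_dom_mul, ex_dom_mul, ex_dom_mul] at h5
  refine h5.trans (add_le_add le_rfl ?_)
  have hRR := (le_max_left R1 R2).trans hR
  have k1 := hfm R T hRR hfit σ.X Dom σ.E σ.L φ hσ.fmd n p hn hbσ
  have k2 := hfm R T hRR hfit τ.X Dom τ.E τ.L φ hτ.fmd n p hn hb
  have k1' : Ex T.V (fun ω => if Dom ω then mass ω (ff T σ.E φ s ω) (σ.L ω) else 0) =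
      Ex T.V (fun ω => if Dom ω then mass ω (ff T σ.E φ s ω) (τ.L ω) else 0) := by
    apply le_antisymm
    · exact ex_dom_mono fun ω hω hd => by rw [hL ω hω hd]
    · exact ex_dom_mono fun ω hω hd => by rw [hL ω hω hd]
  rw [← hs, k1'] at k1
  rw [← hs] at k2
  have hPr0 : 0 ≤ Pr T.V Dom := E.Pr_nonneg _ _
  have hB0 : 0 ≤ C * (R : ℝ) ^ (-c) * Pr T.V Dom + C * (R : ℝ) ^ (-P) := by positivity
  cases b
  · simp only [Bool.false_eq_true, if_false, zero_mul, neg_zero, add_zero]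
    positivity
  · simp only [if_true]
    have a1 := (abs_le.1 k1).2
    have a2 := (abs_le.1 k2).1
    have a3 := mul_le_mul_of_nonneg_left a1 hSm
    have a4 := mul_le_mul_of_nonneg_left a2 hSm
    nlinarith

open Classical in
/-- the mass of `φ` in the explored loop (or outside) by the first moment at `τ` -/
theorem lterm_gb {T : Temp} {xS : ℤ} {τ : Stop T.V xS} {Dom : Conf → Prop}
    {φ : Conf → Pt → ℝ} {Sm : ℝ}
    (hφ : ∀ ω ∈ DD T.V, Dom ω → (∀ x, x ∉ OE T (τ.E ω) → φ ω x = 0) ∧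
      ∑ x ∈ (oe_finite T (τ.E ω)).toFinset, φ ω x = Sm) (b : Bool) :
    Ex T.V (fun ω => if Dom ω then
      (if b then Sm - mass ω (φ ω) (τ.L ω) else mass ω (φ ω) (τ.L ω)) else 0) ≤
    Ex T.V (fun ω => if Dom ω then ∑ x ∈ (oe_finite T (τ.E ω)).toFinset,
      φ ω x * (if b then 1 - τ.Hf ω x else τ.Hf ω x) else 0) +
    |Ex T.V (fun ω => if Dom ω then gdif T τ.E τ.L φ (fun ω => τ.Hf ω) ω else 0)| := by
  have hpt : ∀ ω ∈ DD T.V, Dom ω →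
      (if b then Sm - mass ω (φ ω) (τ.L ω) else mass ω (φ ω) (τ.L ω)) ≤
      ∑ x ∈ (oe_finite T (τ.E ω)).toFinset,
        φ ω x * (if b then 1 - τ.Hf ω x else τ.Hf ω x) +
      (if b then -1 else 1) * gdif T τ.E τ.L φ (fun ω => τ.Hf ω) ω := by
    intro ω hω hd
    obtain ⟨g1, g2⟩ := hφ ω hω hd
    have h0 : ∀ x, x ∉ (oe_finite T (τ.E ω)).toFinset → φ ω x = 0 := fun x hx =>
      g1 x (by rw [Set.Finite.mem_toFinset] at hx; exact hx)
    rw [mass_eq_sum h0, ← g2]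
    unfold gdif
    cases b
    · simp only [Bool.false_eq_true, if_false, one_mul]
      rw [← Finset.sum_add_distrib]
      refine le_of_eq (Finset.sum_congr rfl fun x _ => ?_)
      ring
    · simp only [if_true, neg_mul, one_mul]
      rw [← sub_eq_add_neg, ← Finset.sum_sub_distrib, ← Finset.sum_sub_distrib]
      refine le_of_eq (Finset.sum_congr rfl fun x _ => ?_)
      ring
  have h5 := ex_dom_mono (V := T.V) (Dom := Dom) hpt
  rw [ex_dom_add, ex_dom_mul] at h5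
  refine h5.trans (add_le_add le_rfl ?_)
  cases b
  · simp only [Bool.false_eq_true, if_false, one_mul]
    exact le_abs_self _
  · simp only [if_true, neg_mul, one_mul]
    exact neg_le_abs _

end Vale.Agent.P155.NT878
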