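import Vale.Agent.P155.NT878.Cls
import Vale.Agent.P155.QQ.Asm

/-!
# P155, NT: `BDrun` along approximations, unconditional
-/

namespace Vale.Agent.P155.NT878

open Vale.Agent.P155 Vale.Agent.P155.Q1

theorem bdrun {Ω : Set ℂ} (hΩ : IsOpen Ω) (hb : Bornology.IsBounded Ω) (hne : Ω.Nonempty)
    (hsc : SimplyConnectedSpace Ω) (S : TempApprox Ω) {M : ℝ} (hM : 0 < M) : BDrun (FS S M) :=
  bdrun_FS QQ.bd hΩ hb hne hsc S hM

theorem bdrun' {Ω : Set ℂ} (hΩ : IsOpen Ω) (hb : Bornology.IsBounded Ω) (hne : Ω.Nonempty)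
    (hsc : SimplyConnectedSpace Ω) (S : TempApprox Ω) {M : ℝ} (hM : 0 < M) :
    BDrun (FT (FS S M)) := bdrun_tr (bdrun hΩ hb hne hsc S hM)

end Vale.Agent.P155.NT878
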