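import Vale.Agent.P155.S743.Eval
import Vale.Agent.P155.E4.Mass

/-!
# P155, NT: the potential of the uniform density on a box decays at the walls
-/

namespace Vale.Agent.P155.NT878

open Finset S743 G45 E4

open Classical in
/-- the potential of `r^{-2} 1_{dn q z ≤ 4 r}` is at most `C (dF y / r)^β` -/
theorem strip_pot : ∃ β : ℝ, 0 < β ∧ β ≤ 1 ∧ ∀ K : ℕ, ∃ C : ℝ, 0 ≤ C ∧ ∀ O : Set Pt, O.Finite →
    CPr O → ∀ (q : Pt) (r : ℕ), 1 ≤ r → ∀ y : Pt, dn q y ≤ K * r → dF O y ≤ K * r →
    0 ≤ pot O (fun z => if dn q z ≤ 4 * r then ((r : ℝ) ^ 2)⁻¹ else 0) y ∧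
    pot O (fun z => if dn q z ≤ 4 * r then ((r : ℝ) ^ 2)⁻¹ else 0) y ≤
      C * ((dF O y : ℝ) / r) ^ β := by
  obtain ⟨γ, hγ, hγ1, hpot⟩ := pot_meso
  refine ⟨γ, hγ, hγ1, fun K => ?_⟩
  obtain ⟨Cd, hCd, hpot⟩ := hpot ((2 * K + 5 : ℝ) ^ 3 / 8) (by positivity)
  refine ⟨Cd, hCd, ?_⟩
  intro O hO hCP q r hr y hy hd
  have hr0 : (0 : ℝ) < r := by exact_mod_cast hr
  obtain ⟨p, hp, hpd⟩ := exists_dF (exists_notMem hO) y
  have hspec := pot_spec hO (fun z => if dn q z ≤ 4 * r then ((r : ℝ) ^ 2)⁻¹ else 0)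
  constructor
  · exact green_nonneg hO hspec (fun z _ => by
      split_ifs
      · positivity
      · exact le_rfl) y
  · obtain ⟨ub, -, -, h2, -, h4⟩ := hpot O p r _ _ hO hCP hp hr (fun z => by
      by_cases hz : dn q z ≤ 4 * r
      · simp only [hz, if_true]
        rw [abs_of_pos (by positivity)]
        have h1 : dn p z ≤ (2 * K + 4) * r := by
          have t1 := dn_tri p y z
          have t2 := dn_tri y q z
          rw [dn_comm y q] at t2
          rw [dn_comm p y] at t1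
          have : (2 * K + 4) * r = K * r + K * r + 4 * r := by ring
          omega
        have h1r : (dn p z : ℝ) ≤ (2 * K + 4) * r := by exact_mod_cast h1
        unfold E4.dens
        rw [inv_eq_one_div, div_le_div_iff₀ (by positivity) (by positivity)]
        have h3 : ((r : ℝ) + dn p z) ^ 3 ≤ ((2 * K + 5) * r) ^ 3 := by
          apply pow_le_pow_left₀ (by positivity)
          linarith
        calc 1 * ((r : ℝ) + dn p z) ^ 3 ≤ ((2 * K + 5) * r) ^ 3 := by rw [one_mul]; exact h3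
          _ = _ := by ring
      · simp only [hz, if_false, abs_zero]
        exact dens_nonneg (by positivity) _ _ _) hspec
    exact (le_abs_self _).trans ((h2 y).trans (h4 y))

end Vale.Agent.P155.NT878
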