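import Vale.Agent.P155.NT613.UnxE

/-!
# P155, NT: the visit bound, numbers
-/

namespace Vale.Agent.P155.NT878

/-- all the scales in the visit bound -/
theorem vb_scales {γ a CT am e cz η : ℝ} (hγ : 0 < γ) (hγ1 : γ ≤ 1) (ha : 0 < a)
    (ha1 : a ≤ am / 2) (ha2 : a ≤ cz / 4) (ha3 : a ≤ 1 / 2) (hCT : 0 < CT) (he : 0 < e)
    (hη : 0 < η) : ∃ R0 : ℕ, 1 ≤ R0 ∧ ∀ R : ℕ, R0 ≤ R → ∀ κ r : ℕ,
    η * R ≤ κ → η * R ≤ r →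
    ((R : ℝ) ^ (1 / 2 : ℝ) ≤ κ ∧ (R : ℝ) ≤ (κ : ℝ) ^ (1 + γ ^ 2 / 4096) ∧ (R : ℝ) ^ (1 - e) ≤ κ) ∧
    (⌈(R : ℝ) ^ a⌉₊ : ℝ) ≤ (R : ℝ) ^ am ∧ 8 * ⌈(R : ℝ) ^ a⌉₊ ≤ R ∧
    ((⌈(R : ℝ) ^ a⌉₊ ^ 2 : ℕ) : ℝ) ≤ (R : ℝ) ^ cz ∧
    (⌈CT * (⌈(R : ℝ) ^ (1 - γ ^ 2 / 1024)⌉₊ : ℝ)⌉₊ : ℝ) ≤ (R : ℝ) ^ (1 - γ ^ 2 / 2048) ∧
    ⌈CT * (⌈(R : ℝ) ^ (1 - γ ^ 2 / 1024)⌉₊ : ℝ)⌉₊ ≤ R ∧
    ⌈(R : ℝ) ^ a⌉₊ ≤ r ∧ ⌈(R : ℝ) ^ (1 - γ ^ 2 / 1024)⌉₊ + 1 ≤ r ∧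
    ⌈CT * (⌈(R : ℝ) ^ (1 - γ ^ 2 / 1024)⌉₊ : ℝ)⌉₊ < 7 * r := by
  have hg0 : 0 < γ ^ 2 := by positivity
  obtain ⟨R1, h1⟩ := NT613.pow_lt_ev (a := 1 / 2) (b := 1) (by norm_num) η⁻¹
  obtain ⟨R2, h2⟩ := NT613.pow_lt_ev (a := 1) (b := 1 + γ ^ 2 / 4096) (by linarith)
    (η ^ (1 + γ ^ 2 / 4096))⁻¹
  obtain ⟨R3, h3⟩ := NT613.pow_lt_ev (a := 1 - e) (b := 1) (by linarith) η⁻¹
  obtain ⟨R4, h4⟩ := NT613.pow_lt_ev (a := a) (b := am) (by linarith) 2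
  obtain ⟨R5, h5⟩ := NT613.pow_lt_ev (a := a) (b := 1) (by linarith) (16 + 2 * η⁻¹)
  obtain ⟨R6, h6⟩ := NT613.pow_lt_ev (a := 2 * a) (b := cz) (by linarith) 4
  obtain ⟨R7, h7⟩ := NT613.pow_lt_ev (a := 1 - γ ^ 2 / 1024) (b := 1 - γ ^ 2 / 2048)
    (by linarith) (2 * CT + 1)
  obtain ⟨R8, h8⟩ := NT613.pow_lt_ev (a := 1 - γ ^ 2 / 2048) (b := 1) (by linarith) (1 + η⁻¹)
  obtain ⟨R9, h9⟩ := NT613.pow_lt_ev (a := 1 - γ ^ 2 / 1024) (b := 1) (by linarith) (3 * η⁻¹)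
  refine ⟨1 + R1 + R2 + R3 + R4 + R5 + R6 + R7 + R8 + R9, by omega, ?_⟩
  intro R hR κ r hκ hr
  replace h1 := h1 R (by omega)
  replace h2 := h2 R (by omega)
  replace h3 := h3 R (by omega)
  replace h4 := h4 R (by omega)
  replace h5 := h5 R (by omega)
  replace h6 := h6 R (by omega)
  replace h7 := h7 R (by omega)
  replace h8 := h8 R (by omega)
  replace h9 := h9 R (by omega)
  rw [Real.rpow_one] at h1 h2 h3 h5 h8 h9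
  have hR1 : (1 : ℝ) ≤ R := by exact_mod_cast (by omega : 1 ≤ R)
  have hR0 : (0 : ℝ) < R := by linarith
  have hηR : 0 < η * R := by positivity
  have hκ0 : (0 : ℝ) < κ := lt_of_lt_of_le hηR hκ
  have div : ∀ X : ℝ, η⁻¹ * X ≤ R → X ≤ η * R := by
    intro X hX
    have := mul_le_mul_of_nonneg_left hX hη.le
    rwa [← mul_assoc, mul_inv_cancel₀ hη.ne', one_mul] at this
  have p1 : (1 : ℝ) ≤ (R : ℝ) ^ a := Real.one_le_rpow hR1 ha.le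
  have c1 : (⌈(R : ℝ) ^ a⌉₊ : ℝ) ≤ 2 * (R : ℝ) ^ a := by
    have := Nat.ceil_lt_add_one (a := (R : ℝ) ^ a) (by positivity)
    linarith
  obtain ⟨ρ, hρ⟩ : ∃ ρ : ℝ, ρ = (R : ℝ) ^ (1 - γ ^ 2 / 1024) := ⟨_, rfl⟩
  have hρ0 : 0 < ρ := by rw [hρ]; positivity
  rw [← hρ] at h7 h9 ⊢
  have c2 : (⌈ρ⌉₊ : ℝ) ≤ ρ + 1 := (Nat.ceil_lt_add_one hρ0.le).le
  have hγ2 : γ ^ 2 ≤ 1 := pow_le_one₀ hγ.le hγ1
  have p2 : (1 : ℝ) ≤ ρ := by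
    rw [hρ]
    exact Real.one_le_rpow hR1 (by linarith)
  have c3 : CT * (⌈ρ⌉₊ : ℝ) ≤ 2 * CT * ρ := by
    have := mul_le_mul_of_nonneg_left c2 hCT.le
    have := mul_le_mul_of_nonneg_left p2 hCT.le
    linarith
  have c4 : (⌈CT * (⌈ρ⌉₊ : ℝ)⌉₊ : ℝ) ≤ (2 * CT + 1) * ρ := by
    have := Nat.ceil_lt_add_one (a := CT * (⌈ρ⌉₊ : ℝ)) (by positivity)
    linarith
  have c5 := c4.trans h7
  have p3 : (0 : ℝ) < (R : ℝ) ^ (1 - γ ^ 2 / 2048) := by positivity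
  have hη1 : 0 < η⁻¹ := inv_pos.2 hη
  have p4 : (R : ℝ) ^ (1 - γ ^ 2 / 2048) ≤ η * R := by
    apply div
    have : 0 ≤ 1 * (R : ℝ) ^ (1 - γ ^ 2 / 2048) := by positivity
    linarith
  have p5 : (R : ℝ) ^ (1 - γ ^ 2 / 2048) ≤ R := by
    have : 0 ≤ η⁻¹ * (R : ℝ) ^ (1 - γ ^ 2 / 2048) := by positivity
    linarith
  have p6 : 0 ≤ η⁻¹ * (R : ℝ) ^ a := by positivity
  refine ⟨⟨(div _ h1).trans hκ, ?_, (div _ h3).trans hκ⟩, c1.trans h4, ?_, ?_, c5, ?_, ?_, ?_, ?_⟩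
  · have q1 : (R : ℝ) ≤ (η * R) ^ (1 + γ ^ 2 / 4096) := by
      rw [Real.mul_rpow hη.le hR0.le]
      have hp : 0 < η ^ (1 + γ ^ 2 / 4096) := by positivity
      have := mul_le_mul_of_nonneg_left h2 hp.le
      rwa [← mul_assoc, mul_inv_cancel₀ hp.ne', one_mul] at this
    exact q1.trans (Real.rpow_le_rpow hηR.le hκ (by positivity))
  · have : (8 * ⌈(R : ℝ) ^ a⌉₊ : ℝ) ≤ R := by linarith
    exact_mod_cast this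
  · push_cast
    calc (⌈(R : ℝ) ^ a⌉₊ : ℝ) ^ 2 ≤ (2 * (R : ℝ) ^ a) ^ 2 :=
          pow_le_pow_left₀ (by positivity) c1 2
      _ = 4 * (R : ℝ) ^ (2 * a) := by
          rw [mul_pow, ← Real.rpow_natCast ((R : ℝ) ^ a) 2, ← Real.rpow_mul hR0.le]
          norm_num
          ring_nf
      _ ≤ _ := h6
  · exact_mod_cast c5.trans p5
  · have : (⌈(R : ℝ) ^ a⌉₊ : ℝ) ≤ r := by
      refine c1.trans ((div _ ?_).trans hr)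
      linarith
    exact_mod_cast this
  · have : (⌈ρ⌉₊ : ℝ) + 1 ≤ r := by
      refine le_trans ?_ ((div (3 * ρ) ?_).trans hr)
      · linarith
      · linarith
    exact_mod_cast this
  · have hr1 : (0 : ℝ) < r := lt_of_lt_of_le hηR hr
    have : (⌈CT * (⌈ρ⌉₊ : ℝ)⌉₊ : ℝ) < 7 * r := by
      have := c5.trans (p4.trans hr)
      linarith
    exact_mod_cast this

end Vale.Agent.P155.NT878
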