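import Vale.Agent.P155.NT878.VBCasm
import Vale.Agent.P155.NT878.VBCnum

/-!
# P155, NT: the visit bound at one macroscopic scale
-/

namespace Vale.Agent.P155.NT878

open Vale.Agent.P155 Finset SW HT T905 T802 T862 G45 J H904 H12 NT E4 S862 NT905 NT743 S743 NT34
  NT276 NT802

theorem oe_on {T : Temp} {xS : ℤ} {q : Pt} {r k : ℕ} {ω : Conf} :
    OE T ((tE T.V xS q r k).toStop.E ω) = ON T xS ω q r k := by
  rw [Tm.GTime.toStop_E, tE_N]
  rfl

open Classical in
theorem pr_visit {T : Temp} {xS : ℤ} {q x : Pt} {r k κ : ℕ} {Dom : Conf → Prop} :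
    Pr T.V (fun ω => Dom ω ∧ ∃ n, eN T xS ω q r k ≤ n ∧ n < xN T xS ω q r k ∧
      gN T xS ω n ∈ box x (3 * κ)) =
    Ex T.V (fun ω => if Dom ω then
      (if Visited T xS q r k (fun _ => x) (3 * κ) ω then (1 : ℝ) else 0) else 0) := by
  rw [Vale.Agent.P155.E.Pr_eq_avg, Ex_eq_avg]
  refine avg_congr fun ω _ => ?_
  unfold Visited
  by_cases h : Dom ω
  · simp only [h, true_and, if_true]
  · simp only [h, false_and, if_false]

theorem lin2 {cv P D C h e X ε : ℝ} (hcv : 0 < cv) (h1 : cv * P ≤ D) (h2 : D ≤ C * (h + e + X))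
    (h3 : C / cv * e ≤ ε) : P ≤ C / cv * h + ε + C / cv * X := by
  have h4 : P ≤ cv⁻¹ * (C * (h + e + X)) := by
    have := mul_le_mul_of_nonneg_left (h1.trans h2) (inv_pos.2 hcv).le
    rwa [← mul_assoc, inv_mul_cancel₀ hcv.ne', one_mul] at this
  refine h4.trans ?_
  have e1 : cv⁻¹ * (C * (h + e + X)) = C / cv * h + C / cv * e + C / cv * X := by
    rw [div_eq_mul_inv]
    ring
  rw [e1]
  linarith

open Classical in
/-- **VBC**: the visit bound at one macroscopic scale. -/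
theorem vbc : NT276.VBC := by
  obtain ⟨K, hK, cv, hcv, hvis⟩ := visit_le
  obtain ⟨γ, a, CT, am, e, cz, c0, C, hγ, hγ1, ha, a1, a2, a3, hCT, he, hc0, hC, R0, hR0, hdrop⟩ :=
    vb_drop (L := 8 * K + 1) (by omega)
  refine ⟨K, by omega, fun c hc => ⟨C / cv, by positivity, fun η ε hη hε => ?_⟩⟩
  obtain ⟨R1, hR1, hsc⟩ := vb_scales (η := min η c / 4) hγ hγ1 ha a1 a2 a3 hCT he (by positivity)
  obtain ⟨R2, hR2⟩ := NT613.pow_lt_ev (a := -c0) (b := 0) (by linarith) (C / cv / ε)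
  refine ⟨R0 + R1 + R2, fun R hR T hfit xS q r k hcr hrR hq => ⟨fun _ => C / cv,
    fun _ _ => by positivity, J.Ex_le_const (by positivity) (fun _ _ => le_rfl), ?_⟩⟩
  intro x κ b Dom hηκ hκ hqx hDom hD
  have hr : 1 ≤ r := by omega
  have hKκ : 17 * κ ≤ K * κ := Nat.mul_le_mul_right κ hK
  have hLκ : (8 * K + 1) * κ = 8 * (K * κ) + κ := by ring
  have hqx' : dn q x + 8 * (K * κ) + 4 ≤ 2 * r := by
    rw [← mul_assoc]
    exact hqx
  have hfit4 : Skel.Fits T (4 * R) := fits_mono hfit (by omega)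
  have e4 : ((4 * R : ℕ) : ℝ) = 4 * R := by push_cast; ring
  have hRn : (0 : ℝ) ≤ R := by positivity
  have g1 : min η c / 4 * ((4 * R : ℕ) : ℝ) ≤ κ := by
    rw [e4]
    calc min η c / 4 * (4 * R) = min η c * R := by ring
      _ ≤ η * R := mul_le_mul_of_nonneg_right (min_le_left _ _) hRn
      _ ≤ _ := hηκ
  have g2 : min η c / 4 * ((4 * R : ℕ) : ℝ) ≤ r := by
    rw [e4]
    calc min η c / 4 * (4 * R) = min η c * R := by ring
      _ ≤ c * R := mul_le_mul_of_nonneg_right (min_le_right _ _) hRn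
      _ ≤ _ := hcr
  have hx : At (tE T.V xS q r k) (fun _ => x) := ⟨fun _ _ _ _ _ => rfl, fun _ _ _ _ _ => rfl⟩
  have h1 := hvis T xS q r k (fun _ => x) hx κ Dom hr hq hκ (fun ω hω hd => by
    obtain ⟨p1, p2, p3⟩ := hD ω hω hd
    rw [oe_on]
    exact ⟨p1, p2⟩)
  have h2 := hdrop (4 * R) T (by omega) hfit4 κ r (hsc (4 * R) (by omega) κ r g1 g2) xS q k
    (fun _ => x) hx Dom b hDom hr hq (by omega) (by omega) (by omega) (fun ω hω hd => by
      obtain ⟨p1, p2, p3⟩ := hD ω hω hd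
      rw [mul_assoc] at p3
      rw [oe_on]
      exact ⟨p1, by omega, by omega, by omega⟩)
  rw [← pr_visit] at h1
  have h3 : C / cv * ((4 * R : ℕ) : ℝ) ^ (-c0) ≤ ε := by
    have := hR2 (4 * R) (by omega)
    rw [Real.rpow_zero] at this
    have h5 := mul_le_mul_of_nonneg_left this hε.le
    calc C / cv * ((4 * R : ℕ) : ℝ) ^ (-c0) =
        ε * (C / cv / ε * ((4 * R : ℕ) : ℝ) ^ (-c0)) := by field_simp
      _ ≤ ε * 1 := h5
      _ = ε := mul_one ε
  have h4 := lin2 hcv h1 h2 h3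
  refine h4.trans (le_of_eq ?_)
  congr 1
  rw [← ex_dom_mul]
  simp only [T4, oe_on]

end Vale.Agent.P155.NT878
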