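import Vale.Agent.P155.NT878.VBCfar

/-!
# P155, NT: the visit bound, the drop of the energy
-/

namespace Vale.Agent.P155.NT878

open Vale.Agent.P155 Finset SW HT T905 T802 T862 G45 J H904 H12 NT E4 S862 NT905 NT743 S743 NT34
  NT276

/-- a sum over the free faces of the bump -/
theorem bump_oe {O : Set Pt} (hO : O.Finite) {x : Pt} {κ : ℕ} (hκ : 5 ≤ κ)
    (hbox : ∀ y ∈ box x κ, y ∈ O) (w : Pt → ℝ) :
    ∑ y ∈ hO.toFinset, S743.bump κ x y * w y = ∑ y ∈ box x κ, S743.bump κ x y * w y := by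
  symm
  refine Finset.sum_subset (fun y hy => by simpa using hbox y hy) (fun y _ hy => ?_)
  have : S743.bump κ x y = 0 := by
    by_contra hc
    exact hy (S743.bump_supp hκ hc)
  rw [this, zero_mul]

theorem lin1 {D C h r1 r1' P rP F U c1 z C2 u X a1 : ℝ} (hC : 0 ≤ C)
    (hD : D ≤ C * (h + r1 * P + rP + F + U)) (hP : P ≤ 1) (hr1 : r1 ≤ r1') (h1 : 0 ≤ r1)
    (hrP : rP ≤ r1') (hF : F ≤ c1 * z + c1 * X) (hU : U ≤ C2 * u + C2 * X) (hz : z ≤ r1')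
    (hu : u ≤ r1') (hc1 : 0 ≤ c1) (hC2 : 0 ≤ C2) (ha1 : a1 = C * (2 + c1 + C2)) (hX : 0 ≤ X)
    (hh : 0 ≤ h) (hr : 0 ≤ r1') : D ≤ a1 * (h + r1' + X) := by
  have q1 : r1 * P ≤ r1' := by
    have := mul_le_mul_of_nonneg_left hP h1
    linarith
  have q2 : c1 * z ≤ c1 * r1' := mul_le_mul_of_nonneg_left hz hc1
  have q3 : C2 * u ≤ C2 * r1' := mul_le_mul_of_nonneg_left hu hC2
  have q4 : h + r1 * P + rP + F + U ≤ (2 + c1 + C2) * (h + r1' + X) := by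
    have t1 : 0 ≤ c1 * h := by positivity
    have t2 : 0 ≤ C2 * h := by positivity
    have e : (2 + c1 + C2) * (h + r1' + X) = 2 * h + 2 * r1' + 2 * X + c1 * h + c1 * r1' + c1 * X +
      C2 * h + C2 * r1' + C2 * X := by ring
    rw [e]
    linarith
  calc D ≤ C * (h + r1 * P + rP + F + U) := hD
    _ ≤ C * ((2 + c1 + C2) * (h + r1' + X)) := mul_le_mul_of_nonneg_left q4 hC
    _ = _ := by rw [ha1]; ring

open Classical in
/-- **the drop of the energy between the beginning of the excursion and the first visit** -/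
theorem vb_drop {L : ℕ} (hL : 1 ≤ L) : ∃ γ a CT am e cz c C : ℝ, 0 < γ ∧ γ ≤ 1 ∧ 0 < a ∧
    a ≤ am / 2 ∧ a ≤ cz / 4 ∧ a ≤ 1 / 2 ∧ 0 < CT ∧ 0 < e ∧ 0 < c ∧ 0 ≤ C ∧ ∃ R0 : ℕ, 1 ≤ R0 ∧
    ∀ (R : ℕ) (T : Temp), R0 ≤ R → Skel.Fits T R → ∀ κ r : ℕ,
    (((R : ℝ) ^ (1 / 2 : ℝ) ≤ κ ∧ (R : ℝ) ≤ (κ : ℝ) ^ (1 + γ ^ 2 / 4096) ∧
      (R : ℝ) ^ (1 - e) ≤ κ) ∧
    (⌈(R : ℝ) ^ a⌉₊ : ℝ) ≤ (R : ℝ) ^ am ∧ 8 * ⌈(R : ℝ) ^ a⌉₊ ≤ R ∧
    ((⌈(R : ℝ) ^ a⌉₊ ^ 2 : ℕ) : ℝ) ≤ (R : ℝ) ^ cz ∧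
    (⌈CT * (⌈(R : ℝ) ^ (1 - γ ^ 2 / 1024)⌉₊ : ℝ)⌉₊ : ℝ) ≤ (R : ℝ) ^ (1 - γ ^ 2 / 2048) ∧
    ⌈CT * (⌈(R : ℝ) ^ (1 - γ ^ 2 / 1024)⌉₊ : ℝ)⌉₊ ≤ R ∧
    ⌈(R : ℝ) ^ a⌉₊ ≤ r ∧ ⌈(R : ℝ) ^ (1 - γ ^ 2 / 1024)⌉₊ + 1 ≤ r ∧
    ⌈CT * (⌈(R : ℝ) ^ (1 - γ ^ 2 / 1024)⌉₊ : ℝ)⌉₊ < 7 * r) →
    ∀ (xS : ℤ) (q : Pt) (k : ℕ) (x : Conf → Pt) (hx : At (tE T.V xS q r k) x)
      (Dom : Conf → Prop) (b : Bool), At (tE T.V xS q r k) Dom → 1 ≤ r →
    (16 * r : ℤ) ≤ |q.1 - xS| → 5 ≤ κ → κ ≤ r → L * κ ≤ R →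
    (∀ ω ∈ DD T.V, Dom ω → (tE T.V xS q r k).N ω < Tm.M T.V xS ω ∧
      3 * κ < dF (OE T ((tE T.V xS q r k).toStop.E ω)) (x ω) ∧
      dF (OE T ((tE T.V xS q r k).toStop.E ω)) (x ω) + κ ≤ L * κ ∧
      dn q (x ω) + κ ≤ 2 * r) →
    Ex T.V (fun ω => if Dom ω then
      dropE (tE T.V xS q r k).toStop (tV hx (3 * κ)).toStop
        (fun ω => S743.bump κ (x ω)) ω else 0) ≤
      C * (Ex T.V (fun ω => if Dom ω then
        ∑ y ∈ box (x ω) κ, S743.bump κ (x ω) y * Gb T xS q r k b ω y else 0) +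
        (R : ℝ) ^ (-c) + Ex T.V (fun ω => if Dom ω then
        T4 (OE T ((tE T.V xS q r k).toStop.E ω)) q (x ω) r κ else 0)) := by
  obtain ⟨γ, hγ, hγ1, hv1⟩ := v1_asm
  obtain ⟨cz, hcz, ez, hez, Cz, hCz, hfz⟩ := far_zone (e0 := γ ^ 2 / 2048) (by positivity)
  obtain ⟨am, ham, eu, heu, cu, hcu, hun⟩ := uns_bump
  obtain ⟨Cu, hCu, Ru, hRu, hun⟩ := hun L
  obtain ⟨a, ha, haa, CT, hCT, c, hc, C, hC, R0, hR0, hv1⟩ :=
    hv1 (1 / 2) (16000000 * (L : ℝ) ^ 6) (min (min (am / 2) (cz / 4)) (1 / 2)) 1 1 (by norm_num)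
      (by positivity) (by positivity) one_pos le_rfl
  have a1 : a ≤ am / 2 := haa.trans ((min_le_left _ _).trans (min_le_left _ _))
  have a2 : a ≤ cz / 4 := haa.trans ((min_le_left _ _).trans (min_le_right _ _))
  have a3 : a ≤ 1 / 2 := haa.trans (min_le_right _ _)
  refine ⟨γ, a, CT, am, min ez eu, cz, min (min c 1) (min cz cu), C * (2 + Cz + Cu), hγ, hγ1, ha,
    a1, a2, a3, hCT, lt_min hez heu, by positivity, by positivity, max R0 Ru,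
    hR0.trans (le_max_left _ _), ?_⟩
  intro R T hR hfit κ r hsc xS q k x hx Dom b hDom hr hq hκ hκr hLκ hD
  obtain ⟨⟨s1, s2, s3⟩, s4, s5, s6, s7, s8, s9, s10, s11⟩ := hsc
  have hR1 : 1 ≤ R := (hR0.trans (le_max_left _ _)).trans hR
  have hRr : (1 : ℝ) ≤ R := by exact_mod_cast hR1
  have hκL : κ ≤ L * κ := Nat.le_mul_of_pos_left κ (by omega)
  have hκLr : (κ : ℝ) ≤ ((L * κ : ℕ) : ℝ) := by exact_mod_cast hκL
  have s3z : (R : ℝ) ^ (1 - ez) ≤ κ :=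
    (Real.rpow_le_rpow_of_exponent_le hRr (by linarith [min_le_left ez eu])).trans s3
  have s3u : (R : ℝ) ^ (1 - eu) ≤ κ :=
    (Real.rpow_le_rpow_of_exponent_le hRr (by linarith [min_le_right ez eu])).trans s3
  obtain ⟨hnum, -, hdrop⟩ := hv1 R (L * κ) R T ((le_max_left _ _).trans hR) hfit (s1.trans hκLr)
    hLκ le_rfl (by
      rw [one_mul]
      exact s2.trans (Real.rpow_le_rpow (by positivity) hκLr (by positivity))) _ _ rfl rfl
  have hs8 := hnum.1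
  have hlt : ∀ ω ∈ DD T.V, Dom ω → (tE T.V xS q r k).N ω < Tm.M T.V xS ω :=
    fun ω hω hd => (hD ω hω hd).1
  have hboxE : ∀ ω ∈ DD T.V, Dom ω → ∀ y ∈ box (x ω) κ, y ∈ OE T ((tE T.V xS q r k).toStop.E ω) := by
    intro ω hω hd y hy
    rw [mem_box_dn905] at hy
    by_contra hc
    have h1 := G45.dF_le hc (x := x ω)
    have h2 := (hD ω hω hd).2.1
    omega
  have hnp : ∀ ω : Conf, ∃ p, p ∉ OE T ((tE T.V xS q r k).toStop.E ω) ∧
      dn (x ω) p = dF (OE T ((tE T.V xS q r k).toStop.E ω)) (x ω) := fun ω =>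
    G45.exists_dF (G45.exists_notMem (oe_finite T ((tE T.V xS q r k).toStop.E ω))) (x ω)
  choose p hp1 hp2 using hnp
  obtain ⟨d1, d2⟩ := hdrop xS (tE T.V xS q r k).toStop (tV hx (3 * κ)).toStop Dom
    (fun ω => S743.bump κ (x ω)) p (0, 0) (fms_E hx hDom κ hr hq hlt)
    (fms_V hx hDom κ (3 * κ) hr hq hlt)
    (fun ω hω hd => (tV_facts hω hr hq (hlt ω hω hd)).2.2.2)
    (fun ω hω hd => ⟨hp1 ω, bump_off hκ hL (by
      rw [G45.dn_comm, hp2]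
      exact (hD ω hω hd).2.2.1)⟩)
    (by
      intro ω hω hd y hy
      have h1 := S743.bump_supp hκ hy
      have h3 := hboxE ω hω hd y h1
      rw [mem_box_dn905] at h1
      exact tV_free hω hr hq (hlt ω hω hd) (hD ω hω hd).2.1 h3 (by omega))
    (fun ω _ _ y => S743.bump_nonneg κ (x ω) y)
  have hF := hfz R T hR1 hfit κ _ _ _ _ s3z hs8 s5 s6 s7 s8 (Nat.le_ceil _) xS q r k x hx Dom hr hq
    hκ hκr s9 s10 s11 (fun ω hω hd => ⟨hlt ω hω hd, by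
      have := (hD ω hω hd).2.1
      omega, (hD ω hω hd).2.2.2⟩)
  have hU := hun R T ((le_max_right _ _).trans hR) hfit κ _ s3u (hκL.trans hLκ) hs8 s4 xS q r k x
    hx Dom hr hq hκ hκr s9 hD
  have hX0 : 0 ≤ Ex T.V (fun ω => if Dom ω then
        T4 (OE T ((tE T.V xS q r k).toStop.E ω)) q (x ω) r κ else 0) :=
    ex_dom_nonneg fun ω _ _ => T4_nonneg (oe_finite T _) _ _ _ _
  have hrc : ∀ t : ℝ, min (min c 1) (min cz cu) ≤ t →
      (R : ℝ) ^ (-t) ≤ (R : ℝ) ^ (-min (min c 1) (min cz cu)) := fun t ht =>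
    Real.rpow_le_rpow_of_exponent_le hRr (by linarith)
  have t1 := hrc c ((min_le_left _ _).trans (min_le_left _ _))
  have t2 := hrc 1 ((min_le_left _ _).trans (min_le_right _ _))
  have t3 := hrc cz ((min_le_right _ _).trans (min_le_left _ _))
  have t4 := hrc cu ((min_le_right _ _).trans (min_le_right _ _))
  have hP := Vale.Agent.P155.E.Pr_le_one T.V Dom
  cases b with
  | false =>
    have e1 : Ex T.V (fun ω => if Dom ω then
        hitE (tE T.V xS q r k).toStop (fun ω => S743.bump κ (x ω)) ω else 0) ≤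
        Ex T.V (fun ω => if Dom ω then
        ∑ y ∈ box (x ω) κ, S743.bump κ (x ω) y * Gb T xS q r k false ω y else 0) :=
      ex_dom_mono fun ω hω hd => (bump_oe (oe_finite T _) hκ (hboxE ω hω hd) _).le
    have e0 : 0 ≤ Ex T.V (fun ω => if Dom ω then
        hitE (tE T.V xS q r k).toStop (fun ω => S743.bump κ (x ω)) ω else 0) :=
      ex_dom_nonneg fun ω _ _ => Finset.sum_nonneg fun y _ =>
        mul_nonneg (S743.bump_nonneg κ (x ω) y) (((tE T.V xS q r k).toStop.Hf_spec ω).nonneg y)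
    have h5 := lin1 hC d1 hP t1 (by positivity) t2 hF hU t3 t4 hCz hCu rfl hX0 e0 (by positivity)
    refine h5.trans (mul_le_mul_of_nonneg_left ?_ (by positivity))
    linarith
  | true =>
    have e1 : Ex T.V (fun ω => if Dom ω then
        hitE' (tE T.V xS q r k).toStop (fun ω => S743.bump κ (x ω)) ω else 0) ≤
        Ex T.V (fun ω => if Dom ω then
        ∑ y ∈ box (x ω) κ, S743.bump κ (x ω) y * Gb T xS q r k true ω y else 0) :=
      ex_dom_mono fun ω hω hd => (bump_oe (oe_finite T _) hκ (hboxE ω hω hd) _).le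
    have e0 : 0 ≤ Ex T.V (fun ω => if Dom ω then
        hitE' (tE T.V xS q r k).toStop (fun ω => S743.bump κ (x ω)) ω else 0) :=
      ex_dom_nonneg fun ω _ _ => Finset.sum_nonneg fun y _ =>
        mul_nonneg (S743.bump_nonneg κ (x ω) y)
          (sub_nonneg.2 (((tE T.V xS q r k).toStop.Hf_spec ω).le_one y))
    have d2' := d2 1 zero_le_one le_rfl (fun ω hω hd => S743.bump_sum hκ (x ω)
      (fun y hy => by simpa using hboxE ω hω hd y hy))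
    have h5 := lin1 hC d2' hP t1 (by positivity) t2 hF hU t3 t4 hCz hCu rfl hX0 e0 (by positivity)
    refine h5.trans (mul_le_mul_of_nonneg_left ?_ (by positivity))
    linarith

end Vale.Agent.P155.NT878
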