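import Vale.Agent.P155.NT905.V1Main
import Vale.Agent.P155.NT34.Visit
import Vale.Agent.P155.NT276.Far

/-!
# P155, NT: the visit bound, deterministic parts
-/

namespace Vale.Agent.P155.NT878

open Vale.Agent.P155 Finset SW HT T905 T802 T862 G45 J H904 H12 NT E4 S862 NT905 NT743 S743

open Classical in
/-- the far part of the layer function of a bump at a stopping time -/
theorem far_bump : ∃ Cf : ℝ, 0 < Cf ∧ ∀ (T : Temp) (xS : ℤ) (τ : Stop T.V xS) (ω : Conf),
    ω ∈ DD T.V → ∀ (x : Conf → Pt) (q : Pt) (κ s r : ℕ) (S : Finset Pt), 5 ≤ κ → 8 ≤ s → s ≤ r →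
    dn q (x ω) + κ ≤ 2 * r → (∀ y ∈ box (x ω) κ, y ∈ OE T (τ.E ω)) →
    (∀ y ∈ S, 4 * r ≤ dn q y) →
    ∑ y ∈ S, |gL T τ.E (fun ω => S743.bump κ (x ω)) s ω y| ≤
      Cf * ∑ y ∈ box (x ω) κ, S743.bump κ (x ω) y *
        S743.pot (OE T (τ.E ω)) (fun z => if dn q z ≤ 4 * r then ((r : ℝ) ^ 2)⁻¹ else 0) y := by
  obtain ⟨C, hC, hfar⟩ := NT276.far_le
  refine ⟨C * (32 ^ 4 + 1), by positivity, ?_⟩
  intro T xS τ ω hω x q κ s r S hκ hs hsr hqx hbox hS
  have hO := oe_finite T (τ.E ω)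
  have hφ0 : ∀ y, 2 * r < dn q y → S743.bump κ (x ω) y = 0 := by
    intro y hy
    by_contra hc
    have h1 := S743.bump_supp hκ hc
    rw [mem_box_dn905] at h1
    have h2 := G45.dn_tri q (x ω) y
    omega
  have h := hfar (OE T (τ.E ω)) hO (Stop.cpr hω) s r (32 ^ 4) 0 (cutf (OE T (τ.E ω)) s)
    (S743.bump κ (x ω)) (pot (OE T (τ.E ω)) (S743.bump κ (x ω))) (S743.bump κ (x ω))
    (fun _ => 0) (S743.pot (OE T (τ.E ω)) (fun z => if dn q z ≤ 4 * r then ((r : ℝ) ^ 2)⁻¹ else 0))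
    q (by omega) hsr le_rfl (cutf_isCut (exists_notMem hO) hs le_rfl) (pot_spec hO _) hφ0
    (fun y => S743.bump_nonneg κ (x ω) y) hφ0 (fun _ => le_rfl) (fun _ => by simp)
    (fun _ _ => rfl) (fun v hv _ _ => by
      rw [abs_of_nonneg (Finset.sum_nonneg fun y _ => mul_nonneg (S743.bump_nonneg κ (x ω) y) (hv y))]
      refine Finset.sum_le_sum fun y _ => ?_
      rw [add_zero]) (pot_spec hO _) S hS
  rw [add_zero] at h
  refine h.trans (le_of_eq ?_)
  congr 1
  symm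
  refine Finset.sum_subset (fun y hy => by simpa using hbox y hy) (fun y _ hy => ?_)
  have : S743.bump κ (x ω) y = 0 := by
    by_contra hc
    exact hy (S743.bump_supp hκ hc)
  rw [this, zero_mul]

open Classical in
/-- potentials are monotone in the domain -/
theorem pot_mono {O O' : Set Pt} (hO : O.Finite) (hO' : O'.Finite) (h : O' ⊆ O) {φ : Pt → ℝ}
    (hφ : ∀ y, 0 ≤ φ y) (y : Pt) : pot O' φ y ≤ pot O φ y := by
  have h1 := pot_spec hO φ
  have h0 := green_nonneg hO h1 (fun y _ => hφ y)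
  exact green_le_super hO' (pot_spec hO' φ)
    (fun x hx => by have := h1.eq x (h hx); linarith) (fun x _ => h0 x) y

/-- the density of the standard bump -/
theorem bump_dens {κ L : ℕ} {x p : Pt} (hκ : 5 ≤ κ) (hp : dn p x + κ ≤ L * κ) (y : Pt) :
    |S743.bump κ x y| ≤ E4.dens (2000000 * ((L : ℝ) + 1) ^ 3) p κ y := by
  by_cases hy : S743.bump κ x y = 0
  · rw [hy, abs_zero]
    exact dens_nonneg (by positivity) _ _ _
  · have h1 := S743.bump_supp hκ hy
    rw [mem_box_dn905] at h1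
    have h2 := G45.dn_tri p x y
    rw [abs_of_nonneg (S743.bump_nonneg κ x y)]
    refine (S743.bump_le hκ x y).trans ?_
    unfold E4.dens
    have hκ0 : (0 : ℝ) < κ := by exact_mod_cast (by omega : 0 < κ)
    have h3 : ((κ : ℝ) + dn p y) ≤ ((L : ℝ) + 1) * κ := by
      have h4 : κ + dn p y ≤ (L + 1) * κ := by
        rw [add_mul, one_mul]
        omega
      exact_mod_cast h4
    have h5 : ((κ : ℝ) + dn p y) ^ 3 ≤ (((L : ℝ) + 1) * κ) ^ 3 :=
      pow_le_pow_left₀ (by positivity) h3 3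
    rw [div_le_div_iff₀ (by positivity) (by positivity)]
    calc 16000000 * ((κ : ℝ) + dn p y) ^ 3 ≤ 16000000 * (((L : ℝ) + 1) * κ) ^ 3 := by linarith
      _ = _ := by ring

end Vale.Agent.P155.NT878
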