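import Vale.Agent.P155.NT878.VBCuns

/-!
# P155, NT: the visit bound, the far part and the polygon zone
-/

namespace Vale.Agent.P155.NT878

open Vale.Agent.P155 Finset SW HT T905 T802 T862 G45 J H904 H12 NT E4 S862 NT905 NT743 S743 NT34
  NT276

open Classical in
/-- **the far part and the polygon zone** in the visit bound -/
theorem far_zone {e0 : ℝ} (he0 : 0 < e0) : ∃ cz > (0 : ℝ), ∃ e > (0 : ℝ),
    ∃ C : ℝ, 0 ≤ C ∧ ∀ (R : ℕ) (T : Temp), 1 ≤ R → Skel.Fits T R →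
    ∀ κ s ρ0 h : ℕ, ∀ H : ℝ, (R : ℝ) ^ (1 - e) ≤ κ → 8 ≤ s → 8 * s ≤ R →
    ((s ^ 2 : ℕ) : ℝ) ≤ (R : ℝ) ^ cz → (h : ℝ) ≤ (R : ℝ) ^ (1 - e0) → h ≤ R → H ≤ h →
    ∀ (xS : ℤ) (q : Pt) (r k : ℕ) (x : Conf → Pt), At (tE T.V xS q r k) x → ∀ (Dom : Conf → Prop),
    1 ≤ r → (16 * r : ℤ) ≤ |q.1 - xS| → 5 ≤ κ → κ ≤ r → s ≤ r → ρ0 + 1 ≤ r → h < 7 * r →
    (∀ ω ∈ DD T.V, Dom ω → (tE T.V xS q r k).N ω < Tm.M T.V xS ω ∧
      κ < dF (OE T ((tE T.V xS q r k).toStop.E ω)) (x ω) ∧ dn q (x ω) + κ ≤ 2 * r) →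
    Ex T.V (fun ω => if Dom ω then
      farL (tE T.V xS q r k).toStop (fun ω => S743.bump κ (x ω)) s R (0, 0) ρ0 ω +
      zoneS (tE T.V xS q r k).toStop (fun ω => S743.bump κ (x ω)) s R (0, 0) H ω else 0) ≤
      C * (R : ℝ) ^ (-cz) + C * Ex T.V (fun ω => if Dom ω then
        T4 (OE T ((tE T.V xS q r k).toStop.E ω)) q (x ω) r κ else 0) := by
  obtain ⟨Cf, hCf, hfar⟩ := far_bump
  obtain ⟨cz, hcz, e, he, hz⟩ := zone_dom he0
  obtain ⟨C, hC, hz⟩ := hz 16000000 (by norm_num)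
  refine ⟨cz, hcz, e, he, C + Cf, by positivity, ?_⟩
  intro R T hR hfit κ s ρ0 h H hκR hs h8 hs2 hh hhR hHh xS q r k x hx Dom hr hq hκ hκr hsr hρr hhr
    hDom
  have hfar1 : ∀ ω ∈ DD T.V, Dom ω →
      farL (tE T.V xS q r k).toStop (fun ω => S743.bump κ (x ω)) s R (0, 0) ρ0 ω ≤
      Cf * T4 (OE T ((tE T.V xS q r k).toStop.E ω)) q (x ω) r κ := by
    intro ω hω hd
    refine hfar T xS _ ω hω x q κ s r _ hκ hs hsr (hDom ω hω hd).2.2 ?_ ?_
    · intro y hy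
      rw [mem_box_dn905] at hy
      by_contra hc
      have h1 := G45.dF_le hc (x := x ω)
      have h2 := (hDom ω hω hd).2.1
      omega
    · intro y hy
      obtain ⟨h1, h2⟩ := Finset.mem_filter.1 hy
      have h3 : y ∈ OE T ((tE T.V xS q r k).toStop.E ω) := by simpa using h1
      have h4 : y ∈ box (0, 0) R := by exact_mod_cast hfit h3.1
      rcases h2 with h5 | h5
      · exact absurd h4 h5
      · exact far_of_strip hq (m := ρ0 + 1) (by exact_mod_cast h5) hρr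
  have hzone := hz R T hR hfit s (s ^ 2) h κ hs (by nlinarith) h8 hs2 hh hhR (by omega) hκR xS
    (tE T.V xS q r k).toStop Dom (fun ω => S743.bump κ (x ω))
    (fun ω => if ω ∈ DD T.V ∧ Dom ω then
      ((box (0, 0) R).filter (fun x => (dF T.faceSet x : ℝ) < H ∧
        ∃ v ∈ (tE T.V xS q r k).toStop.L ω, v ∈ box x (s ^ 2 + 1))) else ∅) (by
      intro ω hω hd
      refine ⟨tE_new hω hr hq (hDom ω hω hd).1, ?_, ?_, ?_, ?_⟩
      · intro z
        obtain ⟨v, hv, hzv⟩ := NT902.exc_diam hq (hDom ω hω hd).1 z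
        refine ⟨v, hv, fun hc => ?_⟩
        rw [mem_box_dn905] at hc
        omega
      · intro y
        rw [abs_of_nonneg (S743.bump_nonneg κ (x ω) y)]
        exact S743.bump_le hκ (x ω) y
      · intro y hy
        by_contra hc
        have h1 := S743.bump_supp hκ hc
        rw [mem_box_dn905] at h1
        refine hy ?_
        have h3 : y ∈ OE T ((tE T.V xS q r k).toStop.E ω) := by
          by_contra hc
          have h4 := G45.dF_le hc (x := x ω)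
          have h2 := (hDom ω hω hd).2.1
          omega
        exact_mod_cast hfit h3.1
      · intro y hy
        rw [if_pos ⟨hω, hd⟩] at hy
        obtain ⟨-, h1, v, hv, hvy⟩ := Finset.mem_filter.1 hy
        refine ⟨?_, v, hv, mem_box_dn905.1 hvy⟩
        have h2 : (dF T.faceSet y : ℝ) ≤ h := h1.le.trans hHh
        exact_mod_cast h2)
  have h3 := ex_dom_mono (V := T.V) (Dom := Dom) hfar1
  rw [ex_dom_mul] at h3
  have h4 := ex_dom_mono (V := T.V) (Dom := Dom)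
    (f := fun ω => zoneS (tE T.V xS q r k).toStop (fun ω => S743.bump κ (x ω)) s R (0, 0) H ω)
    (g := fun ω => ∑ y ∈ (if ω ∈ DD T.V ∧ Dom ω then
      ((box (0, 0) R).filter (fun x => (dF T.faceSet x : ℝ) < H ∧
        ∃ v ∈ (tE T.V xS q r k).toStop.L ω, v ∈ box x (s ^ 2 + 1))) else ∅),
      |gL T (tE T.V xS q r k).toStop.E (fun ω => S743.bump κ (x ω)) s ω y|) (by
      intro ω hω hd
      show zoneS (tE T.V xS q r k).toStop (fun ω => S743.bump κ (x ω)) s R (0, 0) H ω ≤ _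
      rw [if_pos ⟨hω, hd⟩]
      exact le_rfl)
  rw [ex_dom_add]
  obtain ⟨X, hX⟩ : ∃ X : ℝ, X = Ex T.V (fun ω => if Dom ω then
        T4 (OE T ((tE T.V xS q r k).toStop.E ω)) q (x ω) r κ else 0) := ⟨_, rfl⟩
  have hX0 : 0 ≤ X := by
    rw [hX]
    exact ex_dom_nonneg fun ω _ _ => T4_nonneg (oe_finite T _) _ _ _ _
  rw [← hX] at h3 ⊢
  have hRp : (0 : ℝ) ≤ (R : ℝ) ^ (-cz) := by positivity
  have h7 : 0 ≤ Cf * (R : ℝ) ^ (-cz) := by positivity
  have h8 : 0 ≤ C * X := by positivity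
  refine (add_le_add h3 (h4.trans hzone)).trans ?_
  linarith

end Vale.Agent.P155.NT878
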