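import Vale.Agent.P155.NT878.VBCdet
import Vale.Agent.P155.NT613.UnxA
import Vale.Agent.P155.NT878.ZoneFM
import Vale.Agent.P155.NT902.Zone

/-!
# P155, NT: the visit bound, the strip and the zone terms
-/

namespace Vale.Agent.P155.NT878

open Vale.Agent.P155 Finset SW HT T905 T802 T862 G45 J H904 H12 NT E4 S862 NT905 NT743 S743 NT34
  NT276

open Classical in
/-- the pairing of the bump with the potential of the mesoscopic box -/
noncomputable def T4 (O : Set Pt) (q x : Pt) (r κ : ℕ) : ℝ :=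
  ∑ y ∈ box x κ, S743.bump κ x y *
    S743.pot O (fun z => if dn q z ≤ 4 * r then ((r : ℝ) ^ 2)⁻¹ else 0) y

theorem T4_nonneg {O : Set Pt} (hO : O.Finite) (q x : Pt) (r κ : ℕ) : 0 ≤ T4 O q x r κ := by
  unfold T4
  refine Finset.sum_nonneg fun y _ => mul_nonneg (S743.bump_nonneg κ x y) ?_
  refine green_nonneg hO (pot_spec hO _) (fun z _ => ?_) y
  split_ifs
  · positivity
  · exact le_rfl

theorem T4_mono {O O' : Set Pt} (hO : O.Finite) (hO' : O'.Finite) (h : O' ⊆ O) (q x : Pt)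
    (r κ : ℕ) : T4 O' q x r κ ≤ T4 O q x r κ := by
  unfold T4
  refine Finset.sum_le_sum fun y _ => mul_le_mul_of_nonneg_left ?_ (S743.bump_nonneg κ x y)
  refine pot_mono hO hO' h (fun z => ?_) y
  split_ifs
  · positivity
  · exact le_rfl

/-- points close to the line are far from the box -/
theorem far_of_strip {q x : Pt} {xS : ℤ} {r m : ℕ} (hq : (16 * r : ℤ) ≤ |q.1 - xS|)
    (hx : |x.1 - xS| ≤ (m : ℤ)) (hm : m ≤ r) : 4 * r ≤ dn q x := by
  by_contra hc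
  have h1 := (T802.dn_le_iff (p := q) (x := x) (r := dn q x)).1 le_rfl
  rw [le_abs] at hq
  rw [abs_le] at hx
  omega

section

variable {T : Temp} {xS : ℤ} {q : Pt} {r k : ℕ} {x : Conf → Pt}

/-- the free faces at the first visit are free at the beginning -/
theorem tV_sub (hx : At (tE T.V xS q r k) x) (m : ℕ) (ω : Conf) :
    OE T ((tV hx m).toStop.E ω) ⊆ OE T ((tE T.V xS q r k).toStop.E ω) :=
  NT802.OE_anti (Tm.En_mono (tE_le_tV (hx := hx) (m := m) (ω := ω)))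

open Classical in
/-- the strips at the two times -/
theorem strips {Cf : ℝ} (hCf : 0 < Cf) (hfar : ∀ (T : Temp) (xS : ℤ) (τ : Stop T.V xS) (ω : Conf),
    ω ∈ DD T.V → ∀ (x : Conf → Pt) (q : Pt) (κ s r : ℕ) (S : Finset Pt), 5 ≤ κ → 8 ≤ s → s ≤ r →
    dn q (x ω) + κ ≤ 2 * r → (∀ y ∈ box (x ω) κ, y ∈ OE T (τ.E ω)) →
    (∀ y ∈ S, 4 * r ≤ dn q y) →
    ∑ y ∈ S, |gL T τ.E (fun ω => S743.bump κ (x ω)) s ω y| ≤
      Cf * ∑ y ∈ box (x ω) κ, S743.bump κ (x ω) y *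
        S743.pot (OE T (τ.E ω)) (fun z => if dn q z ≤ 4 * r then ((r : ℝ) ^ 2)⁻¹ else 0) y)
    (hx : At (tE T.V xS q r k) x) {ω : Conf} (hω : ω ∈ DD T.V) (hr : 1 ≤ r)
    (hq : (16 * r : ℤ) ≤ |q.1 - xS|) {κ s : ℕ} (hκ : 5 ≤ κ) (hκr : κ ≤ r) (hs : 8 ≤ s)
    (hsr : s ≤ r) (hk : (tE T.V xS q r k).N ω < Tm.M T.V xS ω)
    (hd : 3 * κ < dF (OE T ((tE T.V xS q r k).toStop.E ω)) (x ω))
    (hqx : dn q (x ω) + κ ≤ 2 * r) :
    (∑ y ∈ (oe_finite T ((tE T.V xS q r k).toStop.E ω)).toFinset.filter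
        (fun y => |y.1 - xS| ≤ (κ : ℤ)),
      |gL T (tE T.V xS q r k).toStop.E (fun ω => S743.bump κ (x ω)) s ω y| ≤
      Cf * T4 (OE T ((tE T.V xS q r k).toStop.E ω)) q (x ω) r κ) ∧
    (∑ y ∈ (oe_finite T ((tV hx (3 * κ)).toStop.E ω)).toFinset.filter
        (fun y => |y.1 - xS| ≤ (κ : ℤ)),
      |gL T (tV hx (3 * κ)).toStop.E (fun ω => S743.bump κ (x ω)) s ω y| ≤
      Cf * T4 (OE T ((tE T.V xS q r k).toStop.E ω)) q (x ω) r κ) := by
  constructor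
  · refine hfar T xS _ ω hω x q κ s r _ hκ hs hsr hqx ?_ ?_
    · intro y hy
      rw [mem_box_dn905] at hy
      by_contra hc
      have := G45.dF_le hc (x := x ω)
      omega
    · intro y hy
      exact far_of_strip hq (Finset.mem_filter.1 hy).2 hκr
  · refine (hfar T xS _ ω hω x q κ s r _ hκ hs hsr hqx ?_ ?_).trans ?_
    · intro y hy
      rw [mem_box_dn905] at hy
      refine tV_free hω hr hq hk hd ?_ (by omega)
      by_contra hc
      have := G45.dF_le hc (x := x ω)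
      omega
    · intro y hy
      exact far_of_strip hq (Finset.mem_filter.1 hy).2 hκr
    · exact mul_le_mul_of_nonneg_left (T4_mono (oe_finite T _) (oe_finite T _)
        (tV_sub hx _ ω) q (x ω) r κ) hCf.le

end

open Classical in
/-- **the unexplored loops** in the visit bound -/
theorem uns_bump : ∃ am > (0 : ℝ), ∃ e > (0 : ℝ), ∃ c > (0 : ℝ), ∀ L : ℕ,
    ∃ C : ℝ, 0 ≤ C ∧ ∃ R0 : ℕ, 1 ≤ R0 ∧ ∀ (R : ℕ) (T : Temp), R0 ≤ R → Skel.Fits T R →
    ∀ κ s : ℕ, (R : ℝ) ^ (1 - e) ≤ κ → κ ≤ R → 8 ≤ s → (s : ℝ) ≤ (R : ℝ) ^ am →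
    ∀ (xS : ℤ) (q : Pt) (r k : ℕ) (x : Conf → Pt) (hx : At (tE T.V xS q r k) x)
      (Dom : Conf → Prop), 1 ≤ r → (16 * r : ℤ) ≤ |q.1 - xS| → 5 ≤ κ → κ ≤ r → s ≤ r →
    (∀ ω ∈ DD T.V, Dom ω → (tE T.V xS q r k).N ω < Tm.M T.V xS ω ∧
      3 * κ < dF (OE T ((tE T.V xS q r k).toStop.E ω)) (x ω) ∧
      dF (OE T ((tE T.V xS q r k).toStop.E ω)) (x ω) + κ ≤ L * κ ∧
      dn q (x ω) + κ ≤ 2 * r) →
    Ex T.V (fun ω => if Dom ω then
      UnS (tE T.V xS q r k).toStop (fun ω => S743.bump κ (x ω)) s ω +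
      UnS (tV hx (3 * κ)).toStop (fun ω => S743.bump κ (x ω)) s ω else 0) ≤
      C * (R : ℝ) ^ (-c) + C * Ex T.V (fun ω => if Dom ω then
        T4 (OE T ((tE T.V xS q r k).toStop.E ω)) q (x ω) r κ else 0) := by
  obtain ⟨Cf, hCf, hfar⟩ := far_bump
  obtain ⟨am, ham, e, he, c, hc, hu⟩ := NT613.unx_macro
  refine ⟨am, ham, e, he, c, hc, ?_⟩
  intro L
  obtain ⟨D, hD⟩ : ∃ D : ℝ, D = 2000000 * ((L : ℝ) + 1) ^ 3 := ⟨_, rfl⟩
  have hD0 : 0 ≤ D := by rw [hD]; positivity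
  obtain ⟨C, hC, R0, hR0, hu⟩ := hu D hD0
  refine ⟨2 * C + 256 * D * Cf, by positivity, R0, hR0, ?_⟩
  intro R T hR hfit κ s hκR hκR' hs hsR xS q r k x hx Dom hr hq hκ hκr hsr hDom
  have hstrip := fun ω (hω : ω ∈ DD T.V) (hd : Dom ω) => strips hCf hfar hx hω hr hq hκ hκr hs hsr
    (hDom ω hω hd).1 (hDom ω hω hd).2.1 (hDom ω hω hd).2.2.2
  have hp : ∀ ω ∈ DD T.V, Dom ω → ∃ p, p ∉ OE T ((tE T.V xS q r k).toStop.E ω) ∧
      ∀ y, |S743.bump κ (x ω) y| ≤ E4.dens D p κ y := by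
    intro ω hω hd
    obtain ⟨p, hp, hpd⟩ := G45.exists_dF
      (G45.exists_notMem (oe_finite T ((tE T.V xS q r k).toStop.E ω))) (x ω)
    refine ⟨p, hp, fun y => ?_⟩
    rw [hD]
    refine bump_dens hκ ?_ y
    rw [G45.dn_comm]
    rw [hpd]
    exact (hDom ω hω hd).2.2.1
  have h1 := hu R T hR hfit κ s hκR hκR' hs hsR xS (tE T.V xS q r k).toStop Dom
    (fun ω => S743.bump κ (x ω)) (by
      intro ω hω hd
      refine ⟨tE_new hω hr hq (hDom ω hω hd).1, hp ω hω hd, ?_⟩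
      intro y hy
      have h1 := S743.bump_supp hκ hy
      rw [mem_box_dn905] at h1
      have h2 := (hDom ω hω hd).2.1
      obtain ⟨z, hz, hzd⟩ := G45.exists_dF
        (G45.exists_notMem (oe_finite T ((tE T.V xS q r k).toStop.E ω))) y
      rw [← hzd]
      have h3 := G45.dF_le hz (x := x ω)
      have h4 := G45.dn_tri (x ω) y z
      have h5 := G45.dn_tri (x ω) z y
      omega)
  have h2 := hu R T hR hfit κ s hκR hκR' hs hsR xS (tV hx (3 * κ)).toStop Dom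
    (fun ω => S743.bump κ (x ω)) (by
      intro ω hω hd
      obtain ⟨p, hp1, hp2⟩ := hp ω hω hd
      refine ⟨(tV_facts hω hr hq (hDom ω hω hd).1).2.1,
        ⟨p, fun h => hp1 (tV_sub hx _ ω h), hp2⟩, ?_⟩
      intro y hy
      have h1 := S743.bump_supp hκ hy
      rw [mem_box_dn905] at h1
      exact tV_dF hω hr hq (hDom ω hω hd).1 (hDom ω hω hd).2.1 (by omega))
  have h3 := ex_dom_mono (V := T.V) (Dom := Dom) (fun ω hω hd => (hstrip ω hω hd).1)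
  have h4 := ex_dom_mono (V := T.V) (Dom := Dom) (fun ω hω hd => (hstrip ω hω hd).2)
  rw [ex_dom_mul] at h3 h4
  rw [ex_dom_add]
  obtain ⟨X, hX⟩ : ∃ X : ℝ, X = Ex T.V (fun ω => if Dom ω then
        T4 (OE T ((tE T.V xS q r k).toStop.E ω)) q (x ω) r κ else 0) := ⟨_, rfl⟩
  have hX0 : 0 ≤ X := by
    rw [hX]
    exact ex_dom_nonneg fun ω _ _ => T4_nonneg (oe_finite T _) _ _ _ _
  rw [← hX] at h3 h4 ⊢
  have hRp : (0 : ℝ) ≤ (R : ℝ) ^ (-c) := by positivity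
  have h5 := mul_le_mul_of_nonneg_left h3 (by positivity : 0 ≤ 128 * D)
  have h6 := mul_le_mul_of_nonneg_left h4 (by positivity : 0 ≤ 128 * D)
  have h7 : 0 ≤ 256 * D * Cf * (R : ℝ) ^ (-c) := by positivity
  have h8 : 0 ≤ 2 * C * X := by positivity
  have e1 : UnS (tE T.V xS q r k).toStop (fun ω => S743.bump κ (x ω)) s =
    NT613.UnS (tE T.V xS q r k).toStop (fun ω => S743.bump κ (x ω)) s := rfl
  have e2 : UnS (tV hx (3 * κ)).toStop (fun ω => S743.bump κ (x ω)) s =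
    NT613.UnS (tV hx (3 * κ)).toStop (fun ω => S743.bump κ (x ω)) s := rfl
  rw [e1, e2]
  refine (add_le_add h1 h2).trans ?_
  linarith

end Vale.Agent.P155.NT878
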